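import Mathlib

noncomputable section

namespace Vale.Agent.P194

open Finsupp MonoidAlgebra

variable {K G : Type*} [Field K] [Group G]

/-- Left translations on finitely supported functions on a left coset space. -/
def cosetHom (K : Type*) [Field K] {G : Type*} [Group G] (H : Subgroup G) :
    G →* Module.End K (G ⧸ H →₀ K) where
  toFun g := Finsupp.lmapDomain K K (fun q => g • q)
  map_one' := by
    refine LinearMap.ext fun y => ?_
    simp only [Finsupp.lmapDomain_apply, one_smul, Module.End.one_apply]
    exact Finsupp.mapDomain_id
  map_mul' g h := by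
    refine LinearMap.ext fun y => ?_
    simp only [Finsupp.lmapDomain_apply, Module.End.mul_apply, ← Finsupp.mapDomain_comp]
    simp [Function.comp_def, mul_smul]

/-- The action of the group algebra on functions on a coset space. -/
def act (K : Type*) [Field K] {G : Type*} [Group G] (H : Subgroup G) :
    MonoidAlgebra K G →ₐ[K] Module.End K (G ⧸ H →₀ K) :=
  MonoidAlgebra.lift K (Module.End K (G ⧸ H →₀ K)) G (cosetHom K H)

lemma act_single (H : Subgroup G) (g : G) (c : K) (y : G ⧸ H →₀ K) :
    act K H (single g c) y = c • Finsupp.mapDomain (fun q => g • q) y := by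
  simp [act, cosetHom, MonoidAlgebra.lift_single, Finsupp.lmapDomain_apply]

lemma act_apply (H : Subgroup G) (a : MonoidAlgebra K G) (y : G ⧸ H →₀ K) (w : G ⧸ H) :
    act K H a y w = a.coeff.sum (fun g c => c * y (g⁻¹ • w)) := by
  induction a using MonoidAlgebra.induction_linear with
  | zero => simp
  | add a b ha hb =>
      rw [map_add, LinearMap.add_apply, Finsupp.add_apply, ha, hb, MonoidAlgebra.coeff_add,
        Finsupp.sum_add_index' (fun g => zero_mul _) (fun g c d => add_mul _ _ _)]
  | single g c =>
      rw [act_single, MonoidAlgebra.coeff_single, Finsupp.sum_single_index (zero_mul _)]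
      conv_lhs => rw [Finsupp.smul_apply, ← smul_inv_smul g w]
      rw [Finsupp.mapDomain_apply (MulAction.injective g), smul_eq_mul]

/-- Equivariant maps of coset spaces commute with the action. -/
lemma act_mapDomain {H H' : Subgroup G} (f : G ⧸ H → G ⧸ H')
    (hf : ∀ (g : G) q, f (g • q) = g • f q) (a : MonoidAlgebra K G) (y : G ⧸ H →₀ K) :
    act K H' a (Finsupp.mapDomain f y) = Finsupp.mapDomain f (act K H a y) := by
  induction a using MonoidAlgebra.induction_linear with
  | zero => simp [Finsupp.mapDomain_zero]
  | add a b ha hb =>
      rw [map_add, map_add, LinearMap.add_apply, LinearMap.add_apply, ha, hb,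
        Finsupp.mapDomain_add]
  | single g c =>
      rw [act_single, act_single, Finsupp.mapDomain_smul, ← Finsupp.mapDomain_comp,
        ← Finsupp.mapDomain_comp]
      congr 2
      funext q
      exact (hf g q).symm

/-- Pulling back along an equivariant map commutes with the action. -/
lemma act_pullback {H H' : Subgroup G} (f : G ⧸ H → G ⧸ H')
    (hf : ∀ (g : G) q, f (g • q) = g • f q) (a : MonoidAlgebra K G) (y : G ⧸ H →₀ K)
    (z : G ⧸ H' →₀ K) (hyz : ∀ w, y w = z (f w)) (w : G ⧸ H) :
    act K H a y w = act K H' a z (f w) := by
  rw [act_apply, act_apply]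
  refine Finsupp.sum_congr fun g _ => ?_
  rw [hyz, hf]

lemma mapDomain_coeff_mul (H : Subgroup G) (a b : MonoidAlgebra K G) :
    Finsupp.mapDomain (QuotientGroup.mk : G → G ⧸ H) (a * b).coeff
      = act K H a (Finsupp.mapDomain (QuotientGroup.mk : G → G ⧸ H) b.coeff) := by
  induction a using MonoidAlgebra.induction_linear with
  | zero => simp [Finsupp.mapDomain_zero]
  | add a a' ha ha' =>
      rw [add_mul, MonoidAlgebra.coeff_add, Finsupp.mapDomain_add, ha, ha', map_add,
        LinearMap.add_apply]
  | single g c =>
      induction b using MonoidAlgebra.induction_linear with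
      | zero => simp [Finsupp.mapDomain_zero]
      | add b b' hb hb' =>
          rw [mul_add, MonoidAlgebra.coeff_add, MonoidAlgebra.coeff_add, Finsupp.mapDomain_add,
            Finsupp.mapDomain_add, map_add, hb, hb']
      | single h d =>
          rw [MonoidAlgebra.single_mul_single, MonoidAlgebra.coeff_single,
            MonoidAlgebra.coeff_single, Finsupp.mapDomain_single, Finsupp.mapDomain_single,
            act_single, Finsupp.mapDomain_single, Finsupp.smul_single, MulAction.Quotient.smul_mk,
            smul_eq_mul, smul_eq_mul]

lemma act_eq_zero_of_map_eq_zero (N : Subgroup G) [N.Normal] (a : MonoidAlgebra K G)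
    (ha : MonoidAlgebra.mapDomainRingHom K (QuotientGroup.mk' N) a = 0) : act K N a = 0 := by
  have hsmul : ∀ (g : G) (q : G ⧸ N), g • q = (g : G ⧸ N) * q := by
    intro g q
    induction q using QuotientGroup.induction_on with
    | H h => rw [← QuotientGroup.mk_mul, MulAction.Quotient.smul_mk, smul_eq_mul]
  let ψ : G ⧸ N →* Module.End K (G ⧸ N →₀ K) :=
    { toFun := fun x => Finsupp.lmapDomain K K (fun q => x * q)
      map_one' := by
        refine LinearMap.ext fun y => ?_
        simp only [Finsupp.lmapDomain_apply, one_mul, Module.End.one_apply]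
        exact Finsupp.mapDomain_id
      map_mul' := fun x y => by
        refine LinearMap.ext fun z => ?_
        simp only [Finsupp.lmapDomain_apply, Module.End.mul_apply, ← Finsupp.mapDomain_comp]
        simp [Function.comp_def, mul_assoc] }
  have key : ∀ b : MonoidAlgebra K G, act K N b =
      MonoidAlgebra.lift K (Module.End K (G ⧸ N →₀ K)) (G ⧸ N) ψ
        (MonoidAlgebra.mapDomainRingHom K (QuotientGroup.mk' N) b) := by
    intro b
    induction b using MonoidAlgebra.induction_linear with
    | zero => simp
    | add b c hb hc => rw [map_add, map_add, map_add, hb, hc]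
    | single g c =>
        refine LinearMap.ext fun y => ?_
        simp [act_single, ψ, MonoidAlgebra.lift_single, hsmul, Finsupp.lmapDomain_apply]
  rw [key, ha, map_zero]

end Vale.Agent.P194
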