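import Mathlib

namespace Vale.Agent.P194

/-- Every nontrivial finitely generated subgroup has a nontrivial homomorphism to the
cyclic group of order `p`. -/
def IsLocallyPIndicable (p : ℕ) (N : Type*) [Group N] : Prop :=
  ∀ H : Subgroup N, H.FG → H ≠ ⊥ → ∃ φ : ↥H →* Multiplicative (ZMod p), φ ≠ 1

/-- Sofic group: for every finite subset and every positive tolerance there is a map to the
permutations of a nonempty finite set which is multiplicative on the subset, and free on its
nontrivial elements, up to that proportion of the points. -/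
def IsSofic (G : Type*) [Group G] : Prop :=
  ∀ F : Finset G, ∀ ε : ℝ, 0 < ε → ∃ d : ℕ, 0 < d ∧ ∃ φ : G → Equiv.Perm (Fin d),
    (∀ g ∈ F, ∀ h ∈ F,
        (Nat.card {v : Fin d // φ (g * h) v ≠ φ g (φ h v)} : ℝ) ≤ ε * d) ∧
    (∀ g ∈ F, g ≠ 1 → (Nat.card {v : Fin d // φ g v = v} : ℝ) ≤ ε * d)

end Vale.Agent.P194
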