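import Mathlib
import Vale.Agent.P194.Defs
import Vale.Agent.P194.Action

noncomputable section

namespace Vale.Agent.P194

open Finsupp

variable {K G : Type*} [Field K] [Group G] {n : ℕ}

/-- Among column vectors supported on the image of `F` in the coset space of `H`, only zero is
killed by the matrix `A`. -/
def NoKer (A : Matrix (Fin n) (Fin n) (MonoidAlgebra K G)) (F : Finset G) (H : Subgroup G) :
    Prop :=
  ∀ y : Fin n → (G ⧸ H →₀ K),
    (∀ i, ∀ w ∈ (y i).support, ∃ g ∈ F, (g : G ⧸ H) = w) →
    (∀ i, ∑ j, act K H (A i j) (y j) = 0) → y = 0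

lemma noKer_restrict (A : Matrix (Fin n) (Fin n) (MonoidAlgebra K G)) (F : Finset G)
    (H L : Subgroup G) (hLH : L ≤ H)
    (hcap : ∀ u ∈ F, ∀ v ∈ F, u⁻¹ * v ∈ H → u⁻¹ * v ∈ L) (hH : NoKer A F H) :
    NoKer A F L := by
  intro y hy hAy
  let f : G ⧸ L → G ⧸ H := Subgroup.quotientMapOfLE hLH
  have hfmk : ∀ g : G, f (g : G ⧸ L) = (g : G ⧸ H) := fun g => rfl
  have hf : ∀ (g : G) q, f (g • q) = g • f q := by
    intro g q
    induction q using QuotientGroup.induction_on with
    | H h => rfl
  have hz := hH (fun i => Finsupp.mapDomain f (y i)) ?_ ?_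
  · funext i
    have hi : Finsupp.mapDomain f (y i) = 0 := congrFun hz i
    have hinj : Set.InjOn f ((fun g : G => (g : G ⧸ L)) '' (F : Set G)) := by
      rintro _ ⟨u, hu, rfl⟩ _ ⟨v, hv, rfl⟩ huv
      rw [hfmk, hfmk] at huv
      exact QuotientGroup.eq.2 (hcap u hu v hv (QuotientGroup.eq.1 huv))
    refine Finsupp.ext fun w => ?_
    by_contra hw
    have hsub : ↑(y i).support ⊆ (fun g : G => (g : G ⧸ L)) '' (F : Set G) :=
      fun v hv => hy i v hv
    have hval := Finsupp.mapDomain_apply' _ (y i) hsub hinj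
      (hsub (Finsupp.mem_support_iff.2 hw))
    rw [hi, Finsupp.zero_apply] at hval
    exact hw hval.symm
  · intro i w hw
    classical
    have hw' := Finsupp.mapDomain_support hw
    rw [Finset.mem_image] at hw'
    obtain ⟨v, hv, rfl⟩ := hw'
    obtain ⟨g, hg, rfl⟩ := hy i v hv
    exact ⟨g, hg, rfl⟩
  · intro i
    rw [Finset.sum_congr rfl (fun j _ => act_mapDomain f hf (A i j) (y j)),
      ← Finsupp.mapDomain_finsetSum, hAy i, Finsupp.mapDomain_zero]

lemma noKer_step {p : ℕ} [Fact p.Prime] [CharP K p]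
    (A : Matrix (Fin n) (Fin n) (MonoidAlgebra K G)) (F : Finset G) (L : Subgroup G)
    (φ : ↥L →* Multiplicative (ZMod p)) (hφ : φ ≠ 1) (hL : NoKer A F L) :
    NoKer A F (φ.ker.map L.subtype) := by
  set M : Subgroup G := φ.ker.map L.subtype with hMdef
  have hmem : ∀ x : G, x ∈ M ↔ ∃ hx : x ∈ L, φ ⟨x, hx⟩ = 1 := by
    intro x
    constructor
    · rintro ⟨⟨x', hx'⟩, hk, rfl⟩
      exact ⟨hx', hk⟩
    · rintro ⟨hx, hk⟩
      exact ⟨⟨x, hx⟩, hk, rfl⟩
  have hML : M ≤ L := fun x hx => ((hmem x).1 hx).1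
  obtain ⟨σ, hσ⟩ : ∃ σ : ↥L, φ σ = Multiplicative.ofAdd (1 : ZMod p) := by
    obtain ⟨τ, hτ⟩ : ∃ τ : ↥L, φ τ ≠ 1 := by
      by_contra hne
      push Not at hne
      exact hφ (MonoidHom.ext hne)
    have hne : Multiplicative.toAdd (φ τ) ≠ 0 := fun h0 =>
      hτ (Multiplicative.toAdd.injective (by simpa using h0))
    refine ⟨τ ^ ((Multiplicative.toAdd (φ τ))⁻¹).val, ?_⟩
    apply Multiplicative.toAdd.injective
    rw [map_pow, toAdd_pow, nsmul_eq_mul, ZMod.natCast_val, ZMod.cast_id, toAdd_ofAdd]
    exact inv_mul_cancel₀ hne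
  intro y hy hAy
  -- right translation by σ on the coset space of the kernel
  have hwd : ∀ a b : G, a⁻¹ * b ∈ M → (a * σ)⁻¹ * (b * σ) ∈ M := by
    intro a b hab
    obtain ⟨hx, hk⟩ := (hmem _).1 hab
    have heq : (a * σ)⁻¹ * (b * σ) = ((σ⁻¹ * ⟨a⁻¹ * b, hx⟩ * σ : ↥L) : G) := by
      simp [mul_assoc]
    rw [heq]
    refine (hmem _).2 ⟨SetLike.coe_mem _, ?_⟩
    rw [Subtype.coe_eta, map_mul, map_mul, hk, mul_one, map_inv, inv_mul_cancel]
  let r : G ⧸ M → G ⧸ M := fun q => Quotient.liftOn' q (fun g => ((g * σ : G) : G ⧸ M))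
    (fun a b hab => QuotientGroup.eq.2 (hwd a b (QuotientGroup.leftRel_apply.1 hab)))
  have hrmk : ∀ g : G, r (g : G ⧸ M) = ((g * σ : G) : G ⧸ M) := fun g => rfl
  have hriter : ∀ (k : ℕ) (g : G), r^[k] (g : G ⧸ M) = ((g * (σ : G) ^ k : G) : G ⧸ M) := by
    intro k
    induction k with
    | zero => intro g; simp
    | succ k ih =>
        intro g
        rw [Function.iterate_succ_apply, hrmk, ih, pow_succ', mul_assoc]
  have hrp : ∀ q : G ⧸ M, r^[p] q = q := by
    intro q
    induction q using QuotientGroup.induction_on with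
    | H g =>
      rw [hriter, eq_comm]
      apply QuotientGroup.eq.2
      have : g⁻¹ * (g * (σ : G) ^ p) = ((σ ^ p : ↥L) : G) := by simp
      rw [this]
      refine (hmem _).2 ⟨SetLike.coe_mem _, ?_⟩
      have : φ (σ ^ p) = 1 := by
        rw [map_pow, hσ]
        apply Multiplicative.toAdd.injective
        simp [toAdd_pow]
      rw [Subtype.coe_eta]
      exact this
  have hrG : ∀ (g : G) q, r (g • q) = g • r q := by
    intro g q
    induction q using QuotientGroup.induction_on with
    | H h =>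
      rw [MulAction.Quotient.smul_mk, hrmk, hrmk, MulAction.Quotient.smul_mk, smul_eq_mul,
        smul_eq_mul, mul_assoc]
  let π : G ⧸ M → G ⧸ L := Subgroup.quotientMapOfLE hML
  have hπmk : ∀ g : G, π (g : G ⧸ M) = (g : G ⧸ L) := fun g => rfl
  have hπG : ∀ (g : G) q, π (g • q) = g • π q := by
    intro g q
    induction q using QuotientGroup.induction_on with
    | H h => rfl
  have hπr : ∀ q, π (r q) = π q := by
    intro q
    induction q using QuotientGroup.induction_on with
    | H g =>
      rw [hrmk, hπmk, hπmk]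
      apply QuotientGroup.eq.2
      have : (g * σ)⁻¹ * g = ((σ⁻¹ : ↥L) : G) := by simp [mul_assoc]
      rw [this]
      exact SetLike.coe_mem _
  have hπsurj : Function.Surjective π := by
    intro q
    induction q using QuotientGroup.induction_on with
    | H g => exact ⟨(g : G ⧸ M), rfl⟩
  have hfibre : ∀ v w : G ⧸ M, π v = π w → ∃ k : ℕ, w = r^[k] v := by
    intro v w
    induction v using QuotientGroup.induction_on with
    | H g =>
    induction w using QuotientGroup.induction_on with
    | H h =>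
      intro hgh
      have hl : g⁻¹ * h ∈ L := QuotientGroup.eq.1 hgh
      refine ⟨(Multiplicative.toAdd (φ ⟨g⁻¹ * h, hl⟩)).val, ?_⟩
      rw [hriter, eq_comm]
      apply QuotientGroup.eq.2
      set k := (Multiplicative.toAdd (φ ⟨g⁻¹ * h, hl⟩)).val with hk
      have heq : (g * (σ : G) ^ k)⁻¹ * h = (((σ ^ k)⁻¹ * ⟨g⁻¹ * h, hl⟩ : ↥L) : G) := by
        simp [mul_assoc]
      rw [heq]
      refine (hmem _).2 ⟨SetLike.coe_mem _, ?_⟩
      have : φ ((σ ^ k)⁻¹ * ⟨g⁻¹ * h, hl⟩) = 1 := by
        rw [map_mul, map_inv, map_pow, hσ]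
        apply Multiplicative.toAdd.injective
        rw [toAdd_mul, toAdd_inv, toAdd_pow, toAdd_ofAdd, toAdd_one, hk, nsmul_eq_mul, mul_one,
          ZMod.natCast_val, ZMod.cast_id, neg_add_cancel]
      rw [Subtype.coe_eta]
      exact this
  -- the unipotent operator
  let T : Module.End K (G ⧸ M →₀ K) := Finsupp.lmapDomain K K r
  have hTpow : ∀ k : ℕ, ∀ v : (G ⧸ M →₀ K), (T ^ k) v = Finsupp.mapDomain (r^[k]) v := by
    intro k
    induction k with
    | zero => intro v; rw [pow_zero, Module.End.one_apply, Function.iterate_zero, Finsupp.mapDomain_id]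
    | succ k ih =>
        intro v
        rw [pow_succ', Module.End.mul_apply, ih, Function.iterate_succ']
        show Finsupp.lmapDomain K K r (Finsupp.mapDomain r^[k] v) = _
        rw [Finsupp.lmapDomain_apply, ← Finsupp.mapDomain_comp]
  have hTp : T ^ p = 1 := by
    refine LinearMap.ext fun v => ?_
    rw [hTpow, Module.End.one_apply, show r^[p] = id from funext hrp, Finsupp.mapDomain_id]
  let D : Module.End K (G ⧸ M →₀ K) := T - 1
  have hDp : D ^ p = 0 := by
    haveI : Nonempty (G ⧸ M) := ⟨((1 : G) : G ⧸ M)⟩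
    haveI : Nontrivial (G ⧸ M →₀ K) := Finsupp.instNontrivial
    haveI : CharP (Module.End K (G ⧸ M →₀ K)) p :=
      charP_of_injective_algebraMap (FaithfulSMul.algebraMap_injective K (Module.End K (G ⧸ M →₀ K))) p
    show (T - 1) ^ p = 0
    rw [sub_pow_char_of_commute (R := Module.End K (G ⧸ M →₀ K)) (p := p) (Commute.one_right (M := Module.End K (G ⧸ M →₀ K)) T), hTp, one_pow, sub_self]
  have hTact : ∀ (a : MonoidAlgebra K G) (v : (G ⧸ M →₀ K)), act K M a (D v) = D (act K M a v) := by
    intro a v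
    simp only [D, T, LinearMap.sub_apply, Module.End.one_apply, Finsupp.lmapDomain_apply, map_sub]
    rw [act_mapDomain r hrG]
  let good : (G ⧸ M →₀ K) → Prop := fun v => ∀ w ∈ v.support, ∃ g ∈ F, (g : G ⧸ L) = π w
  have hgood : ∀ v, good v → good (D v) := by
    intro v hv w hw
    classical
    have hw' := Finsupp.support_sub hw
    rw [Finset.mem_union] at hw'
    rcases hw' with hw' | hw'
    · have hw'' := Finsupp.mapDomain_support hw'
      rw [Finset.mem_image] at hw''
      obtain ⟨u, hu, rfl⟩ := hw''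
      rw [hπr]
      exact hv u hu
    · exact hv w hw'
  by_contra hy0
  have hex : ∃ k, ∀ i, (D ^ k) (y i) = 0 := ⟨p, fun i => by simp [hDp]⟩
  classical
  have hfind := Nat.find_spec hex
  obtain ⟨m, hm⟩ : ∃ m, Nat.find hex = m + 1 := by
    refine ⟨Nat.find hex - 1, (Nat.succ_pred_eq_of_pos (Nat.pos_of_ne_zero fun h0 => ?_)).symm⟩
    rw [h0] at hfind
    exact hy0 (funext fun i => by simpa using hfind i)
  rw [hm] at hfind
  have hnot : ¬ ∀ i, (D ^ m) (y i) = 0 := Nat.find_min hex (by omega)
  let y' : Fin n → (G ⧸ M →₀ K) := fun i => (D ^ m) (y i)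
  have hfix : ∀ i w, y' i (r w) = y' i w := by
    intro i w
    have hD : D (y' i) = 0 := by
      have := hfind i
      rw [pow_succ'] at this
      exact this
    have hT : Finsupp.mapDomain r (y' i) = y' i := by
      simpa [D, T, sub_eq_zero, Finsupp.lmapDomain_apply] using hD
    have hrinj : Function.Injective r := by
      intro a b hab
      obtain ⟨q, hq⟩ : ∃ q, p = q + 1 :=
        ⟨p - 1, (Nat.succ_pred_eq_of_pos (Fact.out : p.Prime).pos).symm⟩
      have ha := hrp a
      have hb := hrp b
      rw [hq, Function.iterate_succ_apply] at ha hb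
      rw [← ha, ← hb, hab]
    conv_lhs => rw [← hT, Finsupp.mapDomain_apply hrinj]
  have hconst : ∀ i v w, π v = π w → y' i v = y' i w := by
    intro i v w hvw
    obtain ⟨k, rfl⟩ := hfibre v w hvw
    induction k with
    | zero => rfl
    | succ k ih =>
        rw [Function.iterate_succ_apply', hfix]
        refine ih ?_
        rw [hvw, Function.iterate_succ_apply', hπr]
  let s : G ⧸ L → G ⧸ M := Function.surjInv hπsurj
  have hs : ∀ q, π (s q) = q := Function.surjInv_eq hπsurj
  let z : Fin n → (G ⧸ L →₀ K) := fun i =>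
    Finsupp.comapDomain s (y' i) (Function.injective_surjInv hπsurj).injOn
  have hyz : ∀ i w, y' i w = z i (π w) := by
    intro i w
    exact hconst i w (s (π w)) (hs _).symm
  have hy'good : ∀ i, good (y' i) := by
    intro i
    suffices hall : ∀ k, good ((D ^ k) (y i)) from hall m
    intro k
    induction k with
    | zero =>
        intro w hw
        rw [pow_zero, Module.End.one_apply] at hw
        obtain ⟨g, hg, rfl⟩ := hy i w hw
        exact ⟨g, hg, rfl⟩
    | succ k ih =>
        rw [pow_succ', Module.End.mul_apply]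
        exact hgood _ ih
  have hcomm : ∀ (k : ℕ) (a : MonoidAlgebra K G) (v : (G ⧸ M →₀ K)),
      act K M a ((D ^ k) v) = (D ^ k) (act K M a v) := by
    intro k
    induction k with
    | zero => intro a v; simp
    | succ k ih =>
        intro a v
        rw [pow_succ', Module.End.mul_apply, Module.End.mul_apply, hTact, ih]
  have hz := hL z ?_ ?_
  · apply hnot
    intro i
    refine Finsupp.ext fun w => ?_
    show y' i w = 0
    rw [hyz, hz]
    rfl
  · intro i q hq
    have : y' i (s q) ≠ 0 := by simpa [z, Finsupp.mem_support_iff] using hq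
    obtain ⟨g, hg, hgq⟩ := hy'good i (s q) (Finsupp.mem_support_iff.2 this)
    exact ⟨g, hg, by rw [hgq, hs]⟩
  · intro i
    refine Finsupp.ext fun q => ?_
    obtain ⟨w, rfl⟩ := hπsurj q
    have h1 : ∑ j, act K M (A i j) (y' j) = 0 := by
      simp only [y', hcomm]
      rw [← map_sum, hAy i, map_zero]
    have h2 := DFunLike.congr_fun h1 w
    rw [Finsupp.finsetSum_apply] at h2
    rw [Finsupp.finsetSum_apply]
    rw [Finsupp.zero_apply] at h2 ⊢
    refine Eq.trans (Finset.sum_congr rfl fun j _ => ?_) h2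
    exact (act_pullback π hπG (A i j) (y' j) (z j) (hyz j) w).symm

/-- Descent: injectivity relative to a locally p-indicable subgroup gives injectivity. -/
lemma noKer_bot {p : ℕ} [Fact p.Prime] [CharP K p]
    (A : Matrix (Fin n) (Fin n) (MonoidAlgebra K G)) (F : Finset G) (N : Subgroup G)
    (hN : IsLocallyPIndicable p ↥N) (hA : NoKer A F N) : NoKer A F ⊥ := by
  classical
  let S : Finset G := (F ×ˢ F).image (fun uv => uv.1⁻¹ * uv.2)
  let c : Subgroup G → ℕ := fun H => (S.filter (fun x => x ∈ H)).card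
  suffices key : ∀ k, ∀ H : Subgroup G, H ≤ N → c H = k → NoKer A F H → NoKer A F ⊥ from
    key _ N le_rfl rfl hA
  intro k
  induction k using Nat.strong_induction_on with
  | _ k ih =>
    intro H hHN hc hH
    let L : Subgroup G := Subgroup.closure (↑(S.filter (fun x => x ∈ H)) : Set G)
    have hLH : L ≤ H := (Subgroup.closure_le H).2 fun x hx => (Finset.mem_filter.1 hx).2
    have hmemL : ∀ x ∈ S, x ∈ H → x ∈ L := fun x hx hxH =>
      Subgroup.subset_closure (Finset.mem_filter.2 ⟨hx, hxH⟩)
    have hPL : NoKer A F L := noKer_restrict A F H L hLH (fun u hu v hv huv =>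
      hmemL _ (Finset.mem_image.2 ⟨(u, v), Finset.mem_product.2 ⟨hu, hv⟩, rfl⟩) huv) hH
    by_cases hbot : L = ⊥
    · rw [hbot] at hPL
      exact hPL
    · have hLN : L ≤ N := hLH.trans hHN
      have hfg : (L.subgroupOf N).FG := by
        have hLfg : L.FG := ⟨_, rfl⟩
        rw [← Group.fg_iff_subgroup_fg] at hLfg ⊢
        exact Group.fg_of_surjective
          (f := (Subgroup.subgroupOfEquivOfLe hLN).symm.toMonoidHom)
          (MulEquiv.surjective _)
      have hne : L.subgroupOf N ≠ ⊥ := by
        intro h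
        rw [Subgroup.subgroupOf_eq_bot] at h
        exact hbot (h.eq_bot_of_le hLN)
      obtain ⟨ψ, hψ⟩ := hN (L.subgroupOf N) hfg hne
      let φ : ↥L →* Multiplicative (ZMod p) :=
        ψ.comp (Subgroup.subgroupOfEquivOfLe hLN).symm.toMonoidHom
      have hφ : φ ≠ 1 := by
        intro h
        apply hψ
        refine MonoidHom.ext fun x => ?_
        have hx := DFunLike.congr_fun h (Subgroup.subgroupOfEquivOfLe hLN x)
        simpa [φ] using hx
      set M : Subgroup G := φ.ker.map L.subtype with hM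
      have hML : M ≤ L := Subgroup.map_subtype_le _
      have hex : ∃ x ∈ S, x ∈ H ∧ x ∉ M := by
        by_contra hno
        push Not at hno
        apply hφ
        have hLM : L ≤ M := (Subgroup.closure_le M).2 fun x hx =>
          hno x (Finset.mem_filter.1 hx).1 (Finset.mem_filter.1 hx).2
        refine MonoidHom.ext fun x => ?_
        obtain ⟨x', hx', hxx⟩ := hLM x.2
        have hxe : x' = x := Subtype.ext hxx
        rw [← hxe]
        exact hx'
      have hlt : c M < c H := by
        obtain ⟨x, hxS, hxH, hxM⟩ := hex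
        refine Finset.card_lt_card ((Finset.ssubset_iff_of_subset ?_).2 ⟨x, ?_, ?_⟩)
        · intro z hz
          rw [Finset.mem_filter] at hz ⊢
          exact ⟨hz.1, hLH (hML hz.2)⟩
        · exact Finset.mem_filter.2 ⟨hxS, hxH⟩
        · exact fun hx => hxM (Finset.mem_filter.1 hx).2
      exact ih (c M) (hc ▸ hlt) M (hML.trans hLN) rfl (noKer_step A F L φ hφ hPL)

/-- Stable finiteness lifts along locally p-indicable kernels. -/
theorem stablyFinite_of_quotient {p : ℕ} [Fact p.Prime] [CharP K p] (N : Subgroup G) [N.Normal]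
    (hN : IsLocallyPIndicable p ↥N) [IsStablyFiniteRing (MonoidAlgebra K (G ⧸ N))] :
    IsStablyFiniteRing (MonoidAlgebra K G) := by
  refine ⟨fun n => ⟨fun {A B} hAB => ?_⟩⟩
  classical
  let f := (MonoidAlgebra.mapDomainRingHom K (QuotientGroup.mk' N)).mapMatrix (m := Fin n)
  set E := 1 - B * A with hE
  have hfE : f E = 0 := by
    have h1 : f A * f B = 1 := by rw [← map_mul, hAB, map_one]
    rw [hE, map_sub, map_one, map_mul, mul_eq_one_symm h1, sub_self]
  have hidem : (1 - E) * E = 0 := by
    have h2 : B * A * (B * A) = B * A := by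
      rw [Matrix.mul_assoc B A (B * A), ← Matrix.mul_assoc A B A, hAB, Matrix.one_mul]
    rw [hE, sub_sub_cancel, Matrix.mul_sub, Matrix.mul_one, h2, sub_self]
  suffices hE0 : E = 0 by
    rw [hE, sub_eq_zero] at hE0
    exact hE0.symm
  refine Matrix.ext fun i₀ k => ?_
  let F : Finset G := Finset.univ.biUnion fun i => (E i k).coeff.support
  have hbase : NoKer (1 - E) F N := by
    intro y _ hy
    have hact : ∀ i j, act K N ((1 - E) i j) = if i = j then 1 else 0 := by
      intro i j
      have h0 : act K N (E i j) = 0 :=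
        act_eq_zero_of_map_eq_zero N _ (congrFun (congrFun hfE i) j)
      have h1 : (1 - E) i j = (if i = j then 1 else 0) - E i j := by
        rw [Matrix.sub_apply, Matrix.one_apply]
      rw [h1, map_sub, h0]
      split_ifs <;> simp
    funext i
    have := hy i
    simp only [hact] at this
    simpa [apply_ite, ite_apply] using this
  have hbot := noKer_bot (1 - E) F N hN hbase
  let y : Fin n → (G ⧸ (⊥ : Subgroup G) →₀ K) := fun i =>
    Finsupp.mapDomain QuotientGroup.mk (E i k).coeff
  have hy0 := hbot y ?_ ?_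
  · have hi : Finsupp.mapDomain (QuotientGroup.mk : G → G ⧸ (⊥ : Subgroup G))
        (E i₀ k).coeff = 0 := congrFun hy0 i₀
    have hinj : Function.Injective (QuotientGroup.mk : G → G ⧸ (⊥ : Subgroup G)) := by
      intro a b hab
      have := QuotientGroup.eq.1 hab
      rwa [Subgroup.mem_bot, inv_mul_eq_one] at this
    apply MonoidAlgebra.coeff_injective
    rw [Matrix.zero_apply, MonoidAlgebra.coeff_zero]
    exact Finsupp.mapDomain_injective hinj (by rw [hi, Finsupp.mapDomain_zero])
  · intro i w hw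
    have hw' := Finsupp.mapDomain_support hw
    rw [Finset.mem_image] at hw'
    obtain ⟨g, hg, rfl⟩ := hw'
    exact ⟨g, Finset.mem_biUnion.2 ⟨i, Finset.mem_univ i, hg⟩, rfl⟩
  · intro i
    have hsum : ∑ j, (1 - E) i j * E j k = 0 := by
      rw [← Matrix.mul_apply, hidem, Matrix.zero_apply]
    rw [Finset.sum_congr rfl fun j _ => (mapDomain_coeff_mul ⊥ ((1 - E) i j) (E j k)).symm,
      ← Finsupp.mapDomain_finsetSum, ← MonoidAlgebra.coeff_sum, hsum, MonoidAlgebra.coeff_zero,
      Finsupp.mapDomain_zero]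

end Vale.Agent.P194
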