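import Mathlib
import Vale.Agent.P194.Defs

namespace Vale.Agent.P194

/-- Every nontrivial finitely generated subgroup has a nontrivial homomorphism to the integers. -/
def IsLocallyIndicable (N : Type*) [Group N] : Prop :=
  ∀ H : Subgroup N, H.FG → H ≠ ⊥ → ∃ φ : ↥H →* Multiplicative ℤ, φ ≠ 1

lemma locallyPIndicable_of_locallyIndicable {N : Type*} [Group N] (p : ℕ) [Fact p.Prime]
    (h : IsLocallyIndicable N) : IsLocallyPIndicable p N := by
  intro H hfg hne
  obtain ⟨φ, hφ⟩ := h H hfg hne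
  let S : AddSubgroup ℤ :=
    { carrier := {a | ∃ x : ↥H, Multiplicative.toAdd (φ x) = a}
      add_mem' := by
        rintro a b ⟨x, rfl⟩ ⟨y, rfl⟩
        exact ⟨x * y, by rw [map_mul, toAdd_mul]⟩
      zero_mem' := ⟨1, by rw [map_one, toAdd_one]⟩
      neg_mem' := by
        rintro a ⟨x, rfl⟩
        exact ⟨x⁻¹, by rw [map_inv, toAdd_inv]⟩ }
  obtain ⟨m, hm⟩ := Int.subgroup_cyclic S
  have hmem : ∀ x, m ∣ Multiplicative.toAdd (φ x) := by
    intro x
    have : Multiplicative.toAdd (φ x) ∈ AddSubgroup.closure {m} := hm ▸ ⟨x, rfl⟩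
    obtain ⟨k, hk⟩ := AddSubgroup.mem_closure_singleton.1 this
    exact ⟨k, by rw [← hk]; simp [mul_comm]⟩
  have hm0 : m ≠ 0 := by
    rintro rfl
    exact hφ (MonoidHom.ext fun x => Multiplicative.toAdd.injective (by
      simpa using hmem x))
  let ψ : ↥H →* Multiplicative (ZMod p) :=
    { toFun := fun x => Multiplicative.ofAdd ((Multiplicative.toAdd (φ x) / m : ℤ) : ZMod p)
      map_one' := by simp
      map_mul' := fun x y => by
        rw [map_mul, toAdd_mul, Int.add_ediv_of_dvd_left (hmem x), Int.cast_add, ofAdd_add] }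
  refine ⟨ψ, fun hψ => ?_⟩
  have hmS : m ∈ S := hm ▸ AddSubgroup.subset_closure rfl
  obtain ⟨x, hx⟩ := hmS
  have := DFunLike.congr_fun hψ x
  simp [ψ, hx, hm0] at this

lemma locallyIndicable_of_free {N : Type*} [Group N] [IsFreeGroup N] :
    IsLocallyIndicable N := by
  intro H _ hne
  haveI : IsFreeGroup H := subgroupIsFreeOfIsFree H
  by_cases hgen : Nonempty (IsFreeGroup.Generators ↥H)
  · obtain ⟨a⟩ := hgen
    refine ⟨IsFreeGroup.lift (fun _ => Multiplicative.ofAdd (1 : ℤ)), fun h => ?_⟩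
    have := DFunLike.congr_fun h (IsFreeGroup.of a)
    simp at this
  · exfalso
    apply hne
    rw [Subgroup.eq_bot_iff_forall]
    intro x hx
    have hid : MonoidHom.id ↥H = 1 := IsFreeGroup.ext_hom fun a => (hgen ⟨a⟩).elim
    exact congrArg Subtype.val (DFunLike.congr_fun hid ⟨x, hx⟩)

end Vale.Agent.P194
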