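import Mathlib
import Vale.Agent.P194.Defs

namespace Vale.Agent.P194

universe u v

/-- `H` has a normal locally `p`-indicable subgroup whose quotient is sofic or has a stably
finite group algebra over `K`. -/
def HasGoodKernel (p : ℕ) (K : Type v) [Field K] (H : Type u) [Group H] : Prop :=
  ∃ (N : Subgroup H) (_ : N.Normal), IsLocallyPIndicable p ↥N ∧
    (IsSofic (H ⧸ N) ∨ IsStablyFiniteRing (MonoidAlgebra K (H ⧸ N)))

end Vale.Agent.P194
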