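import Mathlib
import Vale.Agent.P194.Defs

noncomputable section

namespace Vale.Agent.P194

universe u v

/-- The group `G` is locally embeddable into the class `P` of groups: every finite subset of `G`
has a map to a member of `P` that is injective on it and multiplicative on it. -/
def LocallyEmbedsInto (G : Type u) [Group G] (P : ∀ (H : Type u) [Group H], Prop) : Prop :=
  ∀ S : Finset G, ∃ (H : Type u) (_ : Group H), P H ∧ ∃ f : G → H,
    Set.InjOn f ↑S ∧ ∀ x ∈ S, ∀ y ∈ S, f (x * y) = f x * f y

variable {K : Type v} [Field K] {G H : Type u} [Group G] [Group H]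

lemma coeff_mapDomain_mul (f : G → H) (a b : MonoidAlgebra K G)
    (h : ∀ x ∈ a.coeff.support, ∀ y ∈ b.coeff.support, f (x * y) = f x * f y) :
    MonoidAlgebra.mapDomain f (a * b)
      = MonoidAlgebra.mapDomain f a * MonoidAlgebra.mapDomain f b := by
  classical
  have ha : a = ∑ x ∈ a.coeff.support, MonoidAlgebra.single x (a.coeff x) := by
    apply MonoidAlgebra.coeff_injective
    rw [MonoidAlgebra.coeff_sum]
    simp only [MonoidAlgebra.coeff_single]
    exact (Finsupp.sum_single a.coeff).symm
  have hb : b = ∑ y ∈ b.coeff.support, MonoidAlgebra.single y (b.coeff y) := by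
    apply MonoidAlgebra.coeff_injective
    rw [MonoidAlgebra.coeff_sum]
    simp only [MonoidAlgebra.coeff_single]
    exact (Finsupp.sum_single b.coeff).symm
  let F : MonoidAlgebra K G →+ MonoidAlgebra K H :=
    { toFun := MonoidAlgebra.mapDomain f
      map_zero' := MonoidAlgebra.coeff_injective (Finsupp.mapDomain_zero (f := f))
      map_add' := fun x y => MonoidAlgebra.coeff_injective (Finsupp.mapDomain_add (f := f)) }
  have hF : ∀ g c, F (MonoidAlgebra.single g c) = MonoidAlgebra.single (f g) c := by
    intro g c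
    apply MonoidAlgebra.coeff_injective
    show Finsupp.mapDomain f (MonoidAlgebra.single g c).coeff = _
    rw [MonoidAlgebra.coeff_single, MonoidAlgebra.coeff_single, Finsupp.mapDomain_single]
  show F (a * b) = F a * F b
  conv_lhs => rw [ha, hb]
  conv_rhs => rw [ha, hb]
  simp only [Finset.sum_mul_sum, MonoidAlgebra.single_mul_single, map_sum, hF]
  exact Finset.sum_congr rfl fun x hx => Finset.sum_congr rfl fun y hy => by rw [h x hx y hy]

theorem stablyFinite_of_locallyEmbedsInto (P : ∀ (H : Type u) [Group H], Prop)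
    (hP : ∀ (H : Type u) [Group H], P H → IsStablyFiniteRing (MonoidAlgebra K H))
    (hG : LocallyEmbedsInto G P) : IsStablyFiniteRing (MonoidAlgebra K G) := by
  refine ⟨fun n => ⟨fun {A B} hAB => ?_⟩⟩
  classical
  let SA : Finset G := Finset.univ.biUnion fun i => Finset.univ.biUnion fun j =>
    (A i j).coeff.support ∪ (B i j).coeff.support ∪ ((B * A) i j).coeff.support
  obtain ⟨H, instH, hH, f, hinj, hmul⟩ := hG (insert 1 SA)
  have hsub : ∀ i j, ∀ x, x ∈ (A i j).coeff.support ∨ x ∈ (B i j).coeff.support ∨
      x ∈ ((B * A) i j).coeff.support → x ∈ insert 1 SA := by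
    intro i j x hx
    refine Finset.mem_insert_of_mem (Finset.mem_biUnion.2 ⟨i, Finset.mem_univ i,
      Finset.mem_biUnion.2 ⟨j, Finset.mem_univ j, ?_⟩⟩)
    rcases hx with hx | hx | hx
    · exact Finset.mem_union_left _ (Finset.mem_union_left _ hx)
    · exact Finset.mem_union_left _ (Finset.mem_union_right _ hx)
    · exact Finset.mem_union_right _ hx
  have hf1 : f 1 = 1 := by
    have h := hmul 1 (Finset.mem_insert_self _ _) 1 (Finset.mem_insert_self _ _)
    rw [one_mul] at h
    exact left_eq_mul.1 h
  let F : MonoidAlgebra K G →+ MonoidAlgebra K H :=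
    { toFun := MonoidAlgebra.mapDomain f
      map_zero' := MonoidAlgebra.coeff_injective (Finsupp.mapDomain_zero (f := f))
      map_add' := fun x y => MonoidAlgebra.coeff_injective (Finsupp.mapDomain_add (f := f)) }
  have hone : (1 : Matrix (Fin n) (Fin n) (MonoidAlgebra K G)).map F = 1 := by
    refine Matrix.map_one F (map_zero F) ?_
    apply MonoidAlgebra.coeff_injective
    show Finsupp.mapDomain f (1 : MonoidAlgebra K G).coeff = _
    rw [MonoidAlgebra.one_def, MonoidAlgebra.coeff_single, Finsupp.mapDomain_single, hf1]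
    rfl
  have hprod : ∀ X Y : Matrix (Fin n) (Fin n) (MonoidAlgebra K G),
      (∀ i k, ∀ x ∈ (X i k).coeff.support, x ∈ insert 1 SA) →
      (∀ k j, ∀ x ∈ (Y k j).coeff.support, x ∈ insert 1 SA) →
      (X * Y).map F = X.map F * Y.map F := by
    intro X Y hX hY
    refine Matrix.ext fun i j => ?_
    rw [Matrix.map_apply, Matrix.mul_apply, map_sum, Matrix.mul_apply]
    exact Finset.sum_congr rfl fun k _ => coeff_mapDomain_mul f (X i k) (Y k j)
      (fun x hx y hy => hmul x (hX i k x hx) y (hY k j y hy))
  haveI := hP H hH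
  have h1 : A.map F * B.map F = 1 := by
    rw [← hprod A B (fun i k x hx => hsub i k x (Or.inl hx))
      (fun k j x hx => hsub k j x (Or.inr (Or.inl hx))), hAB, hone]
  have h2 : (B * A).map F = (1 : Matrix (Fin n) (Fin n) (MonoidAlgebra K G)).map F := by
    rw [hprod B A (fun i k x hx => hsub i k x (Or.inr (Or.inl hx)))
      (fun k j x hx => hsub k j x (Or.inl hx)), mul_eq_one_symm h1, hone]
  refine Matrix.ext fun i j => MonoidAlgebra.coeff_injective ?_
  have h3 : F ((B * A) i j) = F ((1 : Matrix (Fin n) (Fin n) (MonoidAlgebra K G)) i j) :=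
    congrFun (congrFun h2 i) j
  have hone' : ↑((1 : Matrix (Fin n) (Fin n) (MonoidAlgebra K G)) i j).coeff.support
      ⊆ (↑(insert 1 SA) : Set G) := by
    intro x hx
    rw [Matrix.one_apply] at hx
    split_ifs at hx
    · rw [Finset.mem_coe, MonoidAlgebra.one_def, MonoidAlgebra.coeff_single] at hx
      have := Finsupp.support_single_subset hx
      rw [Finset.mem_singleton] at this
      simp [this]
    · simp at hx
  have hBA : ↑((B * A) i j).coeff.support ⊆ (↑(insert 1 SA) : Set G) :=
    fun x hx => hsub i j x (Or.inr (Or.inr hx))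
  exact Finsupp.mapDomain_injOn _ hinj hBA hone' (congrArg MonoidAlgebra.coeff h3)

end Vale.Agent.P194
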