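import Mathlib
import Vale.Agent.P194.Defs

namespace Vale.Agent.P194

/-- Finite models which are almost multiplicative and whose local stabilisers are locally
`p`-indicable: for every finite `F` and positive tolerance there is a map to the permutations of
a nonempty finite set, multiplicative on `F` at most points, such that at most points the
subgroup generated by the elements of `F` fixing the point is locally `p`-indicable. -/
def IsPIndicablySofic (p : ℕ) (G : Type*) [Group G] : Prop :=
  ∀ F : Finset G, ∀ ε : ℝ, 0 < ε → ∃ d : ℕ, 0 < d ∧ ∃ φ : G → Equiv.Perm (Fin d),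
    (∀ g ∈ F, ∀ h ∈ F,
        (Nat.card {v : Fin d // φ (g * h) v ≠ φ g (φ h v)} : ℝ) ≤ ε * d) ∧
    (Nat.card {v : Fin d //
        ¬ IsLocallyPIndicable p ↥(Subgroup.closure {g : G | g ∈ F ∧ φ g v = v})} : ℝ) ≤ ε * d

/-- The subgroup `H` is co-amenable: the action on its cosets has Følner sets. -/
def IsCoamenable {G : Type*} [Group G] (H : Subgroup G) : Prop :=
  ∀ F : Finset G, ∀ ε : ℝ, 0 < ε → ∃ T : Finset (G ⧸ H), T.Nonempty ∧
    ∀ g ∈ F, (Nat.card {t : G ⧸ H // t ∈ T ∧ g • t ∉ T} : ℝ) ≤ ε * T.card

end Vale.Agent.P194
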