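import Mathlib
import Vale.Agent.P194.Defs

noncomputable section

namespace Vale.Agent.P194

open Finsupp

variable {K G : Type*} [Field K] [Group G] {n d : ℕ}

lemma rank_one_sub_mul_comm {ι : Type*} [Fintype ι] [DecidableEq ι] (X Y : Matrix ι ι K) :
    (1 - X * Y).rank = (1 - Y * X).rank := by
  suffices hle : ∀ X Y : Matrix ι ι K,
      Module.finrank K (LinearMap.ker (1 - X * Y).mulVecLin) ≤
        Module.finrank K (LinearMap.ker (1 - Y * X).mulVecLin) by
    have h1 := LinearMap.finrank_range_add_finrank_ker (1 - X * Y).mulVecLin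
    have h2 := LinearMap.finrank_range_add_finrank_ker (1 - Y * X).mulVecLin
    have h3 := le_antisymm (hle X Y) (hle Y X)
    unfold Matrix.rank
    omega
  intro X Y
  have hfix : ∀ v ∈ LinearMap.ker (1 - X * Y).mulVecLin,
      X.mulVec (Y.mulVec v) = v := by
    intro v hv
    rw [LinearMap.mem_ker, Matrix.mulVecLin_apply, Matrix.sub_mulVec, Matrix.one_mulVec,
      sub_eq_zero] at hv
    rw [Matrix.mulVec_mulVec]
    exact hv.symm
  let f : LinearMap.ker (1 - X * Y).mulVecLin →ₗ[K] LinearMap.ker (1 - Y * X).mulVecLin :=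
    LinearMap.codRestrict _ (Y.mulVecLin.comp (Submodule.subtype _)) fun v => by
      rw [LinearMap.mem_ker, LinearMap.comp_apply, Submodule.subtype_apply,
        Matrix.mulVecLin_apply, Matrix.mulVecLin_apply, Matrix.sub_mulVec, Matrix.one_mulVec,
        ← Matrix.mulVec_mulVec, hfix v v.2, sub_self]
  refine LinearMap.finrank_le_finrank_of_injective (f := f) fun v w hvw => ?_
  apply Subtype.ext
  have h : Y.mulVec (v : ι → K) = Y.mulVec (w : ι → K) := congrArg Subtype.val hvw
  rw [← hfix v v.2, ← hfix w w.2, h]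

/-- The matrix by which a matrix over the group algebra acts on a finite model. -/
def model (φ : G → Equiv.Perm (Fin d)) (A : Matrix (Fin n) (Fin n) (MonoidAlgebra K G)) :
    Matrix (Fin n × Fin d) (Fin n × Fin d) K :=
  fun x y => Finsupp.mapDomain (fun g => φ g y.2) (A x.1 y.1).coeff x.2

lemma model_one_sub (φ : G → Equiv.Perm (Fin d))
    (A : Matrix (Fin n) (Fin n) (MonoidAlgebra K G)) (i j : Fin n) (v w : Fin d)
    (h1 : φ 1 w = w) :
    model φ (1 - A) (i, v) (j, w) = (1 - model φ A) (i, v) (j, w) := by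
  simp only [model, Matrix.sub_apply, MonoidAlgebra.coeff_sub, Finsupp.mapDomain_sub,
    Finsupp.sub_apply, Matrix.one_apply, Prod.mk.injEq]
  congr 1
  by_cases hij : i = j
  · subst hij
    classical
    simp [MonoidAlgebra.one_def, h1, Finsupp.single_apply, eq_comm]
  · simp [hij]

lemma model_mul (φ : G → Equiv.Perm (Fin d))
    (A B : Matrix (Fin n) (Fin n) (MonoidAlgebra K G)) (i j : Fin n) (v w : Fin d)
    (hw : ∀ k, ∀ g ∈ (A i k).coeff.support, ∀ h ∈ (B k j).coeff.support,
      φ (g * h) w = φ g (φ h w)) :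
    (model φ A * model φ B) (i, v) (j, w) = model φ (A * B) (i, v) (j, w) := by
  classical
  simp only [model, Matrix.mul_apply, Fintype.sum_prod_type, MonoidAlgebra.coeff_sum,
    Finsupp.mapDomain_finsetSum, Finsupp.finsetSum_apply]
  refine Finset.sum_congr rfl fun k _ => ?_
  have hlhs : ∀ X : Fin d → K,
      ∑ u, X u * Finsupp.mapDomain (fun h => φ h w) (B k j).coeff u
        = ∑ h ∈ (B k j).coeff.support, X (φ h w) * (B k j).coeff h := by
    intro X
    simp only [Finsupp.mapDomain, Finsupp.sum, Finsupp.finsetSum_apply, Finset.mul_sum]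
    rw [Finset.sum_comm]
    refine Finset.sum_congr rfl fun h _ => ?_
    simp [Finsupp.single_apply]
  rw [hlhs]
  have hA : ∀ u : Fin d, Finsupp.mapDomain (fun g => φ g u) (A i k).coeff v
      = ∑ g ∈ (A i k).coeff.support, if φ g u = v then (A i k).coeff g else 0 := by
    intro u
    simp [Finsupp.mapDomain, Finsupp.sum, Finsupp.single_apply]
  have hAB : Finsupp.mapDomain (fun g => φ g w) (A i k * B k j).coeff v
      = ∑ g ∈ (A i k).coeff.support, ∑ h ∈ (B k j).coeff.support,
          if φ (g * h) w = v then (A i k).coeff g * (B k j).coeff h else 0 := by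
    rw [MonoidAlgebra.mul_def]
    simp only [Finsupp.sum, MonoidAlgebra.coeff_sum, MonoidAlgebra.coeff_single,
      Finsupp.mapDomain_finsetSum, Finsupp.mapDomain_single, Finsupp.finsetSum_apply,
      Finsupp.single_apply]
  rw [hAB, Finset.sum_comm]
  refine Finset.sum_congr rfl fun h hh => ?_
  rw [hA, Finset.sum_mul]
  refine Finset.sum_congr rfl fun g hg => ?_
  rw [hw k g hg h hh, ite_mul, zero_mul]

lemma rank_le_card_of_cols {m : Type*} [Fintype m] [DecidableEq m] (M : Matrix m m K)
    (s : Finset m) (h : ∀ x y, y ∉ s → M x y = 0) : M.rank ≤ s.card := by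
  classical
  have hM : M = M * Matrix.diagonal (fun y => if y ∈ s then (1 : K) else 0) := by
    refine Matrix.ext fun x y => ?_
    rw [Matrix.mul_diagonal]
    by_cases hy : y ∈ s <;> simp [hy, h x y]
  rw [hM]
  refine (Matrix.rank_mul_le_right _ _).trans ?_
  rw [Matrix.rank_diagonal]
  simp

/-- Elek–Szabó: group algebras of sofic groups are stably finite. -/
theorem stablyFinite_of_sofic (hG : IsSofic G) : IsStablyFiniteRing (MonoidAlgebra K G) := by
  refine ⟨fun n => ⟨fun {A B} hAB => ?_⟩⟩
  classical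
  by_contra hBA
  set E := 1 - B * A with hE
  obtain ⟨i₀, j₀, g₀, hg₀⟩ : ∃ i j g, (E i j).coeff g ≠ 0 := by
    by_contra hno
    push Not at hno
    apply hBA
    have hE0 : E = 0 := Matrix.ext fun i j => MonoidAlgebra.coeff_injective <| by
      rw [Matrix.zero_apply, MonoidAlgebra.coeff_zero]
      exact Finsupp.ext (hno i j)
    rw [hE, sub_eq_zero] at hE0
    exact hE0.symm
  let S : Finset G := (E i₀ j₀).coeff.support
  let F₀ : Finset G := Finset.univ.biUnion fun i => Finset.univ.biUnion fun j =>
    (A i j).coeff.support ∪ (B i j).coeff.support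
  let F : Finset G := insert 1 (F₀ ∪ S ∪ S.image (fun s => g₀⁻¹ * s) ∪ {g₀, g₀⁻¹})
  have hA : ∀ i j, ∀ g ∈ (A i j).coeff.support, g ∈ F := by
    intro i j g hg
    have : g ∈ F₀ := Finset.mem_biUnion.2 ⟨i, Finset.mem_univ i,
      Finset.mem_biUnion.2 ⟨j, Finset.mem_univ j, Finset.mem_union_left _ hg⟩⟩
    simp [F, this]
  have hB : ∀ i j, ∀ g ∈ (B i j).coeff.support, g ∈ F := by
    intro i j g hg
    have : g ∈ F₀ := Finset.mem_biUnion.2 ⟨i, Finset.mem_univ i,
      Finset.mem_biUnion.2 ⟨j, Finset.mem_univ j, Finset.mem_union_right _ hg⟩⟩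
    simp [F, this]
  set m := F.card with hm
  set C := (2 * S.card + 1) * n + 1 with hC
  obtain ⟨d, hd, φ, hφmul, hφfree⟩ :=
    hG F (1 / (2 * ((m * m + m) * C + 1 : ℕ))) (by positivity)
  let badMul : G × G → Finset (Fin d) := fun gh =>
    Finset.univ.filter fun v => φ (gh.1 * gh.2) v ≠ φ gh.1 (φ gh.2 v)
  let badFix : G → Finset (Fin d) := fun g => Finset.univ.filter fun v => φ g v = v
  let bad : Finset (Fin d) :=
    (F ×ˢ F).biUnion badMul ∪ (F.erase 1).biUnion badFix
  -- few bad points
  have hbad : 2 * ((m * m + m) * C + 1) * bad.card ≤ (m * m + m) * d := by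
    have h1 : (bad.card : ℝ) ≤ (m * m + m : ℕ) * (1 / (2 * ((m * m + m) * C + 1 : ℕ)) * d) := by
      calc (bad.card : ℝ) ≤ (((F ×ˢ F).biUnion badMul).card : ℝ)
            + (((F.erase 1).biUnion badFix).card : ℝ) := by
            exact_mod_cast Finset.card_union_le _ _
        _ ≤ (∑ gh ∈ F ×ˢ F, ((badMul gh).card : ℝ))
            + ∑ g ∈ F.erase 1, ((badFix g).card : ℝ) := by
            gcongr <;> exact_mod_cast Finset.card_biUnion_le
        _ ≤ (∑ gh ∈ F ×ˢ F, (1 / (2 * ((m * m + m) * C + 1 : ℕ)) * d : ℝ))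
            + ∑ g ∈ F.erase 1, (1 / (2 * ((m * m + m) * C + 1 : ℕ)) * d : ℝ) := by
            gcongr with gh hgh g hg
            · have := hφmul gh.1 (Finset.mem_product.1 hgh).1 gh.2 (Finset.mem_product.1 hgh).2
              simpa [badMul, Nat.card_eq_fintype_card, Fintype.card_subtype] using this
            · have := hφfree g (Finset.mem_of_mem_erase hg) (Finset.ne_of_mem_erase hg)
              simpa [badFix, Nat.card_eq_fintype_card, Fintype.card_subtype] using this
        _ ≤ (m * m + m : ℕ) * (1 / (2 * ((m * m + m) * C + 1 : ℕ)) * d) := by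
            rw [Finset.sum_const, Finset.sum_const, nsmul_eq_mul, nsmul_eq_mul, ← add_mul]
            gcongr
            rw [Finset.card_product, ← hm]
            have : ((F.erase 1).card : ℝ) ≤ m := by exact_mod_cast Finset.card_erase_le
            push_cast
            linarith
    set N := (m * m + m) * C + 1
    have hN : (0 : ℝ) < 2 * (N : ℕ) := by positivity
    rw [← mul_assoc, mul_one_div, div_mul_eq_mul_div, le_div_iff₀ hN] at h1
    have : ((2 * N * bad.card : ℕ) : ℝ) ≤ (((m * m + m) * d : ℕ) : ℝ) := by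
      push_cast at h1 ⊢
      linarith
    exact_mod_cast this
  let good := badᶜ
  have hgmul : ∀ v ∈ good, ∀ g ∈ F, ∀ h ∈ F, φ (g * h) v = φ g (φ h v) := by
    intro v hv g hg h hh
    by_contra hne
    apply (Finset.mem_compl.1 hv)
    exact Finset.mem_union_left _ (Finset.mem_biUnion.2
      ⟨(g, h), Finset.mem_product.2 ⟨hg, hh⟩, by simp [badMul, hne]⟩)
  have h1F : (1 : G) ∈ F := Finset.mem_insert_self _ _
  have hg1 : ∀ v ∈ good, φ 1 v = v := by
    intro v hv
    have h := hgmul v hv 1 h1F 1 h1F
    rw [one_mul] at h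
    exact ((φ 1).injective h).symm
  have hg₀F : g₀ ∈ F := by simp [F]
  have hg₀F' : g₀⁻¹ ∈ F := by simp [F]
  have hg₀S : g₀ ∈ S := Finsupp.mem_support_iff.2 hg₀
  have hSF : ∀ s ∈ S, s ∈ F := fun s hs => by simp [F, hs]
  have hsep : ∀ v ∈ good, ∀ s ∈ S, φ s v = φ g₀ v → s = g₀ := by
    intro v hv s hs hsv
    by_contra hne
    have hmem : g₀⁻¹ * s ∈ F := by
      have : g₀⁻¹ * s ∈ S.image (fun s => g₀⁻¹ * s) := Finset.mem_image_of_mem _ hs
      simp only [F, Finset.mem_insert, Finset.mem_union]
      exact Or.inr (Or.inl (Or.inr this))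
    have hne1 : g₀⁻¹ * s ≠ 1 := by
      rw [Ne, inv_mul_eq_one]
      exact fun h => hne h.symm
    have h1 := hgmul v hv g₀⁻¹ hg₀F' s (hSF s hs)
    have h2 := hgmul v hv g₀⁻¹ hg₀F' g₀ hg₀F
    rw [inv_mul_cancel, hg1 v hv, ← hsv, ← h1] at h2
    apply (Finset.mem_compl.1 hv)
    exact Finset.mem_union_right _ (Finset.mem_biUnion.2
      ⟨_, Finset.mem_erase.2 ⟨hne1, hmem⟩, by simp [badFix, ← h2]⟩)
  -- upper bound on the rank
  set X := model φ A
  set Y := model φ B
  have hupper : (1 - X * Y).rank ≤ n * bad.card := by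
    refine (rank_le_card_of_cols _ ((Finset.univ : Finset (Fin n)) ×ˢ bad) ?_).trans
      (by simp [Finset.card_product])
    rintro ⟨i, v⟩ ⟨j, w⟩ hy
    have hw : w ∈ good := by simpa [good] using hy
    rw [Matrix.sub_apply, model_mul φ A B i j v w
      (fun k g hg h hh => hgmul w hw g (hA i k g hg) h (hB k j h hh)), hAB]
    rw [← Matrix.sub_apply, ← model_one_sub φ 1 i j v w (hg1 w hw)]
    simp [model]
  -- a large set of separated good points
  have hlower : good.card ≤ (2 * S.card + 1) * (1 - Y * X).rank := by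
    let Sep : Finset (Fin d) → Prop := fun W =>
      ∀ u ∈ W, ∀ w ∈ W, u ≠ w → ∀ s ∈ S, φ g₀ u ≠ φ s w
    obtain ⟨W, hW, hWmax⟩ := (good.powerset.filter Sep).exists_max_image Finset.card
      ⟨∅, by simp [Sep]⟩
    obtain ⟨hWsub, hWsep⟩ : W ⊆ good ∧ Sep W := by simpa using hW
    let T : Fin d → Finset (Fin d) := fun w => insert w
      (S.image (fun s => (φ g₀).symm (φ s w)) ∪ S.image (fun s => (φ s).symm (φ g₀ w)))
    have hcov : good ⊆ W.biUnion T := by
      intro u hu
      by_contra hno
      simp only [Finset.mem_biUnion, not_exists, not_and] at hno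
      have huW : u ∉ W := fun h => hno u h (Finset.mem_insert_self _ _)
      have hsep' : Sep (insert u W) := by
        intro a ha b hb hab s hs heq
        rcases Finset.mem_insert.1 ha with rfl | ha'
        · rcases Finset.mem_insert.1 hb with rfl | hb'
          · exact hab rfl
          · apply hno b hb'
            refine Finset.mem_insert_of_mem (Finset.mem_union_left _ ?_)
            exact Finset.mem_image.2 ⟨s, hs, by rw [← heq, Equiv.symm_apply_apply]⟩
        · rcases Finset.mem_insert.1 hb with rfl | hb'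
          · apply hno a ha'
            refine Finset.mem_insert_of_mem (Finset.mem_union_right _ ?_)
            exact Finset.mem_image.2 ⟨s, hs, by rw [heq, Equiv.symm_apply_apply]⟩
          · exact hWsep a ha' b hb' hab s hs heq
      have := hWmax (insert u W) (by simp [Finset.insert_subset hu hWsub, hsep'])
      rw [Finset.card_insert_of_notMem huW] at this
      omega
    have hT : ∀ w, (T w).card ≤ 2 * S.card + 1 := by
      intro w
      refine (Finset.card_insert_le _ _).trans (Nat.succ_le_succ ?_)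
      refine (Finset.card_union_le _ _).trans ?_
      have a1 := Finset.card_image_le (s := S) (f := fun s => (φ g₀).symm (φ s w))
      have a2 := Finset.card_image_le (s := S) (f := fun s => (φ s).symm (φ g₀ w))
      omega
    have hrank : W.card ≤ (1 - Y * X).rank := by
      let r : ↥W → Fin n × Fin d := fun w => (i₀, φ g₀ (w : Fin d))
      let c : ↥W → Fin n × Fin d := fun w => (j₀, (w : Fin d))
      have hsub : (1 - Y * X).submatrix r c
          = Matrix.diagonal (fun _ : ↥W => (E i₀ j₀).coeff g₀) := by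
        refine Matrix.ext fun u w => ?_
        rw [Matrix.submatrix_apply]
        have hw : (w : Fin d) ∈ good := hWsub w.2
        have hval : (1 - Y * X) (r u) (c w) =
            Finsupp.mapDomain (fun g => φ g (w : Fin d)) (E i₀ j₀).coeff (φ g₀ (u : Fin d)) := by
          have hmm := model_one_sub φ (B * A) i₀ j₀ (φ g₀ (u : Fin d)) w (hg1 _ hw)
          rw [Matrix.sub_apply, ← model_mul φ B A i₀ j₀ _ w
            (fun k g hg h hh => hgmul w hw g (hB _ _ g hg) h (hA _ _ h hh)),
            ← Matrix.sub_apply] at hmm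
          exact hmm.symm
        rw [hval, Finsupp.mapDomain, Finsupp.sum, Finsupp.finsetSum_apply]
        by_cases huw : u = w
        · subst huw
          rw [Matrix.diagonal_apply_eq, Finset.sum_eq_single_of_mem g₀ hg₀S
            (fun s hs hne => Finsupp.single_eq_of_ne fun h => hne (hsep _ hw s hs h.symm)),
            Finsupp.single_eq_same]
        · rw [Matrix.diagonal_apply_ne _ huw]
          refine Finset.sum_eq_zero fun s hs => Finsupp.single_eq_of_ne fun h => ?_
          exact hWsep u u.2 w w.2 (fun h => huw (Subtype.ext h)) s hs h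
      have h := Matrix.rank_submatrix_le (1 - Y * X) r c
      rw [hsub, Matrix.rank_diagonal] at h
      simpa [hg₀] using h
    calc good.card ≤ (W.biUnion T).card := Finset.card_le_card hcov
      _ ≤ ∑ w ∈ W, (T w).card := Finset.card_biUnion_le
      _ ≤ ∑ _w ∈ W, (2 * S.card + 1) := Finset.sum_le_sum fun w _ => hT w
      _ = W.card * (2 * S.card + 1) := by rw [Finset.sum_const, smul_eq_mul]
      _ ≤ (1 - Y * X).rank * (2 * S.card + 1) := Nat.mul_le_mul_right _ hrank
      _ = _ := Nat.mul_comm _ _
  rw [← rank_one_sub_mul_comm] at hlower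
  have hgc : good.card = d - bad.card := by simp [good, Finset.card_compl]
  have hfin : d ≤ C * bad.card := by
    have h3 : (2 * S.card + 1) * (1 - X * Y).rank ≤ (2 * S.card + 1) * (n * bad.card) :=
      Nat.mul_le_mul_left _ hupper
    have h4 : C * bad.card = (2 * S.card + 1) * (n * bad.card) + bad.card := by
      rw [hC]; ring
    omega
  have hlast : 2 * ((m * m + m) * C + 1) * d ≤ C * ((m * m + m) * d) := by
    calc 2 * ((m * m + m) * C + 1) * d ≤ 2 * ((m * m + m) * C + 1) * (C * bad.card) :=
          Nat.mul_le_mul_left _ hfin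
      _ = C * (2 * ((m * m + m) * C + 1) * bad.card) := by ring
      _ ≤ _ := Nat.mul_le_mul_left _ hbad
  have h5 : 2 * ((m * m + m) * C + 1) * d = 2 * (C * ((m * m + m) * d)) + 2 * d := by ring
  omega

end Vale.Agent.P194
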