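import Mathlib
import Vale.Agent.P194.Descent
import Vale.Agent.P194.Sofic
import Vale.Agent.P194.ModelDefs

noncomputable section

namespace Vale.Agent.P194

variable {G : Type*} [Group G] {p : ℕ}

lemma lpi_of_injective {N M : Type*} [Group N] [Group M] (f : N →* M)
    (hf : Function.Injective f) (hM : IsLocallyPIndicable p M) : IsLocallyPIndicable p N := by
  intro L hL hne
  let e : ↥L ≃* ↥(L.map f) := L.equivMapOfInjective f hf
  have hfg : (L.map f).FG := by
    rw [← Group.fg_iff_subgroup_fg] at hL ⊢
    exact Group.fg_of_surjective (f := e.toMonoidHom) e.surjective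
  have hne' : L.map f ≠ ⊥ := by
    rw [Ne, Subgroup.map_eq_bot_iff_of_injective _ hf]
    exact hne
  obtain ⟨ψ, hψ⟩ := hM (L.map f) hfg hne'
  refine ⟨ψ.comp e.toMonoidHom, fun h => hψ (MonoidHom.ext fun x => ?_)⟩
  have hx := DFunLike.congr_fun h (e.symm x)
  simpa using hx

lemma lpi_of_le {H N : Subgroup G} (h : H ≤ N) (hN : IsLocallyPIndicable p ↥N) :
    IsLocallyPIndicable p ↥H :=
  lpi_of_injective (Subgroup.inclusion h) (Subgroup.inclusion_injective h) hN

lemma lpi_of_subsingleton {N : Type*} [Group N] [Subsingleton N] : IsLocallyPIndicable p N :=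
  fun H _ hne => (hne (Subsingleton.elim _ _)).elim

lemma indicablySofic_of_sofic (hG : IsSofic G) : IsPIndicablySofic p G := by
  classical
  intro F ε hε
  obtain ⟨d, hd, φ, hmul, hfree⟩ := hG F (ε / (F.card + 1)) (by positivity)
  have hle : ε / (F.card + 1) ≤ ε := div_le_self hε.le (by simp)
  refine ⟨d, hd, φ, fun g hg h hh => (hmul g hg h hh).trans (by gcongr), ?_⟩
  let bad : Finset (Fin d) :=
    (F.erase 1).biUnion fun g => Finset.univ.filter fun v => φ g v = v
  have hsub : ∀ v : Fin d, ¬ IsLocallyPIndicable p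
      ↥(Subgroup.closure {g : G | g ∈ F ∧ φ g v = v}) → v ∈ bad := by
    intro v hv
    by_contra hno
    apply hv
    have hbot : Subgroup.closure {g : G | g ∈ F ∧ φ g v = v} ≤ ⊥ := by
      rw [Subgroup.closure_le]
      rintro g ⟨hg, hgv⟩
      rw [SetLike.mem_coe, Subgroup.mem_bot]
      by_contra hne
      exact hno (Finset.mem_biUnion.2 ⟨g, Finset.mem_erase.2 ⟨hne, hg⟩, by simp [hgv]⟩)
    exact lpi_of_le hbot lpi_of_subsingleton
  have h1 : Nat.card {v : Fin d //
      ¬ IsLocallyPIndicable p ↥(Subgroup.closure {g : G | g ∈ F ∧ φ g v = v})} ≤ bad.card := by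
    rw [Nat.card_eq_fintype_card, Fintype.card_subtype]
    exact Finset.card_le_card fun v hv => hsub v (Finset.mem_filter.1 hv).2
  calc (Nat.card {v : Fin d //
        ¬ IsLocallyPIndicable p ↥(Subgroup.closure {g : G | g ∈ F ∧ φ g v = v})} : ℝ)
      ≤ bad.card := by exact_mod_cast h1
    _ ≤ ∑ g ∈ F.erase 1, ((Finset.univ.filter fun v => φ g v = v).card : ℝ) := by
        exact_mod_cast Finset.card_biUnion_le
    _ ≤ ∑ _g ∈ F.erase 1, ε / (F.card + 1) * d := by
        refine Finset.sum_le_sum fun g hg => ?_
        have := hfree g (Finset.mem_of_mem_erase hg) (Finset.ne_of_mem_erase hg)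
        simpa [Nat.card_eq_fintype_card, Fintype.card_subtype] using this
    _ ≤ (F.card + 1) * (ε / (F.card + 1) * d) := by
        rw [Finset.sum_const, nsmul_eq_mul]
        gcongr
        have : ((F.erase 1).card : ℝ) ≤ F.card := by exact_mod_cast Finset.card_erase_le
        linarith
    _ = ε * d := by field_simp

lemma indicablySofic_of_coamenable (H : Subgroup G) (hH : IsCoamenable H)
    (hlpi : IsLocallyPIndicable p ↥H) : IsPIndicablySofic p G := by
  classical
  intro F ε hε
  let F' : Finset G := insert 1 (F ∪ (F ×ˢ F).image fun gh => gh.1 * gh.2)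
  have hε' : 0 < ε / (3 * F'.card) := by
    have : 0 < F'.card := Finset.card_pos.2 ⟨1, Finset.mem_insert_self _ _⟩
    positivity
  obtain ⟨T, hT, hTg⟩ := hH F' (ε / (3 * F'.card)) hε'
  let e : {t // t ∈ T} ≃ Fin T.card := T.equivFin
  have hex : ∀ g : G, ∃ π : Equiv.Perm (Fin T.card), ∀ (t : {t // t ∈ T}) (h : g • t.1 ∈ T),
      π (e t) = e ⟨g • t.1, h⟩ := by
    intro g
    let f : {v : Fin T.card // g • (e.symm v).1 ∈ T} → Fin T.card := fun v =>
      e ⟨g • (e.symm v.1).1, v.2⟩
    have hf : Function.Injective f := by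
      intro a b hab
      have := e.injective hab
      rw [Subtype.mk.injEq] at this
      exact Subtype.ext (e.symm.injective (Subtype.ext (MulAction.injective g this)))
    let e' : {v : Fin T.card // g • (e.symm v).1 ∈ T} ≃ {v : Fin T.card // v ∈ Set.range f} :=
      Equiv.ofInjective f hf
    refine ⟨e'.extendSubtype, fun t h => ?_⟩
    have h' : g • (e.symm (e t)).1 ∈ T := by simpa using h
    refine (Equiv.extendSubtype_apply_of_mem e' _ h').trans ?_
    simp [e', f]
  choose φ hφ using hex
  refine ⟨T.card, Finset.card_pos.2 hT, φ, ?_, ?_⟩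
  · intro g hg h hh
    have hgF : g ∈ F' := by simp [F', hg]
    have hhF : h ∈ F' := by simp [F', hh]
    have hghF : g * h ∈ F' := by
      refine Finset.mem_insert_of_mem (Finset.mem_union_right _ ?_)
      exact Finset.mem_image.2 ⟨(g, h), Finset.mem_product.2 ⟨hg, hh⟩, rfl⟩
    let Bh : Finset (Fin T.card) := Finset.univ.filter fun v => h • (e.symm v).1 ∉ T
    let Bgh : Finset (Fin T.card) := Finset.univ.filter fun v => (g * h) • (e.symm v).1 ∉ T
    have hsub : ∀ v, φ (g * h) v ≠ φ g (φ h v) → v ∈ Bh ∪ Bgh := by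
      intro v hv
      by_contra hno
      simp only [Bh, Bgh, Finset.mem_union, Finset.mem_filter, Finset.mem_univ, true_and,
        not_or, not_not] at hno
      apply hv
      obtain ⟨t, rfl⟩ := e.surjective v
      rw [Equiv.symm_apply_apply] at hno
      rw [hφ (g * h) t hno.2, hφ h t hno.1,
        hφ g ⟨h • t.1, hno.1⟩ (by rw [smul_smul]; exact hno.2)]
      simp [smul_smul]
    have hcount : ∀ k ∈ F', ((Finset.univ.filter fun v => k • (e.symm v).1 ∉ T).card : ℝ)
        ≤ ε / (3 * F'.card) * T.card := by
      intro k hk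
      refine le_trans ?_ (hTg k hk)
      haveI : Finite {t : G ⧸ H // t ∈ T ∧ k • t ∉ T} :=
        Finite.of_injective (fun t => (⟨t.1, t.2.1⟩ : {t // t ∈ T}))
          fun a b hab => Subtype.ext (congrArg (fun z : {t // t ∈ T} => z.1) hab)
      have h0 : Nat.card {v : Fin T.card // k • (e.symm v).1 ∉ T}
          ≤ Nat.card {t : G ⧸ H // t ∈ T ∧ k • t ∉ T} :=
        Nat.card_le_card_of_injective
          (fun v => (⟨(e.symm v.1).1, (e.symm v.1).2, v.2⟩ :
            {t : G ⧸ H // t ∈ T ∧ k • t ∉ T}))
          fun a b hab => by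
            rw [Subtype.mk.injEq] at hab
            exact Subtype.ext (e.symm.injective (Subtype.ext hab))
      rw [Nat.card_eq_fintype_card, Fintype.card_subtype] at h0
      exact_mod_cast h0
    have h1 : Nat.card {v : Fin T.card // φ (g * h) v ≠ φ g (φ h v)} ≤ (Bh ∪ Bgh).card := by
      rw [Nat.card_eq_fintype_card, Fintype.card_subtype]
      exact Finset.card_le_card fun v hv => hsub v (Finset.mem_filter.1 hv).2
    calc (Nat.card {v : Fin T.card // φ (g * h) v ≠ φ g (φ h v)} : ℝ)
        ≤ (Bh ∪ Bgh).card := by exact_mod_cast h1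
      _ ≤ Bh.card + Bgh.card := by exact_mod_cast Finset.card_union_le _ _
      _ ≤ ε / (3 * F'.card) * T.card + ε / (3 * F'.card) * T.card :=
          add_le_add (hcount h hhF) (hcount (g * h) hghF)
      _ ≤ ε * T.card := by
          rw [← add_mul]
          gcongr
          have : (1 : ℝ) ≤ F'.card := by
            exact_mod_cast (Finset.card_pos.2 ⟨g, hgF⟩ : 0 < F'.card)
          rw [← add_div, div_le_iff₀ (by positivity)]
          nlinarith
  · let Bad : Finset (Fin T.card) :=
      F'.biUnion fun k => Finset.univ.filter fun v => k • (e.symm v).1 ∉ T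
    have hsub : ∀ v : Fin T.card, ¬ IsLocallyPIndicable p
        ↥(Subgroup.closure {g : G | g ∈ F ∧ φ g v = v}) → v ∈ Bad := by
      intro v hv
      by_contra hno
      apply hv
      obtain ⟨t, rfl⟩ := e.surjective v
      obtain ⟨x, hx⟩ := QuotientGroup.mk_surjective t.1
      have hle : Subgroup.closure {g : G | g ∈ F ∧ φ g (e t) = e t}
          ≤ H.map (MulAut.conj x).toMonoidHom := by
        rw [Subgroup.closure_le]
        rintro g ⟨hg, hgv⟩
        have hgF : g ∈ F' := by simp [F', hg]
        have hmem : g • t.1 ∈ T := by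
          by_contra hbad
          exact hno (Finset.mem_biUnion.2 ⟨g, hgF, by simp [hbad]⟩)
        rw [hφ g t hmem, e.injective.eq_iff] at hgv
        have hfix : g • t.1 = t.1 := congrArg Subtype.val hgv
        rw [← hx, MulAction.Quotient.smul_mk, QuotientGroup.eq] at hfix
        refine ⟨((g • x)⁻¹ * x)⁻¹, ?_, ?_⟩
        · exact H.inv_mem hfix
        · simp [mul_assoc]
      refine lpi_of_le hle (lpi_of_injective
        (Subgroup.equivMapOfInjective H _ (MulAut.conj x).injective).symm.toMonoidHom
        (MulEquiv.injective _) hlpi)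
    have h1 : Nat.card {v : Fin T.card // ¬ IsLocallyPIndicable p
        ↥(Subgroup.closure {g : G | g ∈ F ∧ φ g v = v})} ≤ Bad.card := by
      rw [Nat.card_eq_fintype_card, Fintype.card_subtype]
      exact Finset.card_le_card fun v hv => hsub v (Finset.mem_filter.1 hv).2
    calc (Nat.card {v : Fin T.card // ¬ IsLocallyPIndicable p
          ↥(Subgroup.closure {g : G | g ∈ F ∧ φ g v = v})} : ℝ)
        ≤ Bad.card := by exact_mod_cast h1
      _ ≤ ∑ k ∈ F', ((Finset.univ.filter fun v => k • (e.symm v).1 ∉ T).card : ℝ) := by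
          exact_mod_cast Finset.card_biUnion_le
      _ ≤ ∑ _k ∈ F', ε / (3 * F'.card) * T.card := by
          refine Finset.sum_le_sum fun k hk => le_trans ?_ (hTg k hk)
          haveI : Finite {t : G ⧸ H // t ∈ T ∧ k • t ∉ T} :=
            Finite.of_injective (fun t => (⟨t.1, t.2.1⟩ : {t // t ∈ T}))
              fun a b hab => Subtype.ext (congrArg (fun z : {t // t ∈ T} => z.1) hab)
          have h0 : Nat.card {v : Fin T.card // k • (e.symm v).1 ∉ T}
              ≤ Nat.card {t : G ⧸ H // t ∈ T ∧ k • t ∉ T} :=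
            Nat.card_le_card_of_injective
              (fun v => (⟨(e.symm v.1).1, (e.symm v.1).2, v.2⟩ :
                {t : G ⧸ H // t ∈ T ∧ k • t ∉ T}))
              fun a b hab => by
                rw [Subtype.mk.injEq] at hab
                exact Subtype.ext (e.symm.injective (Subtype.ext hab))
          rw [Nat.card_eq_fintype_card, Fintype.card_subtype] at h0
          exact_mod_cast h0
      _ ≤ ε * T.card := by
          rw [Finset.sum_const, nsmul_eq_mul, ← mul_assoc]
          gcongr
          have hp : (0 : ℝ) < F'.card := by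
            exact_mod_cast (Finset.card_pos.2 ⟨1, Finset.mem_insert_self _ _⟩ : 0 < F'.card)
          field_simp
          nlinarith

end Vale.Agent.P194
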