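import Mathlib
import Vale.Agent.P194.Models

noncomputable section

namespace Vale.Agent.P194

variable {K G : Type*} [Field K] [Group G] {p n : ℕ}

lemma act_sum_single (H : Subgroup G) (a : MonoidAlgebra K G) (g : G) (c : K) :
    act K H a (Finsupp.single (g : G ⧸ H) c)
      = c • Finsupp.mapDomain (fun h => ((h * g : G) : G ⧸ H)) a.coeff := by
  induction a using MonoidAlgebra.induction_linear with
  | zero => simp [Finsupp.mapDomain_zero]
  | add a b ha hb =>
      rw [map_add, LinearMap.add_apply, ha, hb, MonoidAlgebra.coeff_add, Finsupp.mapDomain_add,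
        smul_add]
  | single h d =>
      rw [act_single, MonoidAlgebra.coeff_single, Finsupp.mapDomain_single,
        Finsupp.mapDomain_single, Finsupp.smul_single, Finsupp.smul_single,
        MulAction.Quotient.smul_mk, smul_eq_mul, smul_eq_mul, smul_eq_mul, mul_comm d c]

/-- Group algebras of groups with finite models having locally p-indicable local stabilisers
are stably finite. -/
theorem stablyFinite_of_indicablySofic [Fact p.Prime] [CharP K p]
    (hG : IsPIndicablySofic p G) : IsStablyFiniteRing (MonoidAlgebra K G) := by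
  refine ⟨fun n => ⟨fun {A B} hAB => ?_⟩⟩
  classical
  by_contra hBA
  set E := 1 - B * A with hE
  have hE0 : E ≠ 0 := fun h => hBA (by rw [hE, sub_eq_zero] at h; exact h.symm)
  let SE : Finset G := Finset.univ.biUnion fun i => Finset.univ.biUnion fun j =>
    (E i j).coeff.support
  have hSE : ∀ i j, ∀ g ∈ (E i j).coeff.support, g ∈ SE := fun i j g hg =>
    Finset.mem_biUnion.2 ⟨i, Finset.mem_univ i, Finset.mem_biUnion.2 ⟨j, Finset.mem_univ j, hg⟩⟩
  let SAB : Finset G := Finset.univ.biUnion fun i => Finset.univ.biUnion fun j =>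
    (A i j).coeff.support ∪ (B i j).coeff.support
  let P : Finset G := (SE ×ˢ SE).image fun x => x.1 * x.2
  let F : Finset G :=
    insert 1 (SAB ∪ SE ∪ P ∪ P.image (fun x => x⁻¹) ∪ (P ×ˢ P).image fun x => x.1⁻¹ * x.2)
  have hA : ∀ i j, ∀ g ∈ (A i j).coeff.support, g ∈ F := by
    intro i j g hg
    have : g ∈ SAB := Finset.mem_biUnion.2 ⟨i, Finset.mem_univ i,
      Finset.mem_biUnion.2 ⟨j, Finset.mem_univ j, Finset.mem_union_left _ hg⟩⟩
    simp [F, this]
  have hB : ∀ i j, ∀ g ∈ (B i j).coeff.support, g ∈ F := by
    intro i j g hg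
    have : g ∈ SAB := Finset.mem_biUnion.2 ⟨i, Finset.mem_univ i,
      Finset.mem_biUnion.2 ⟨j, Finset.mem_univ j, Finset.mem_union_right _ hg⟩⟩
    simp [F, this]
  have h1F : (1 : G) ∈ F := Finset.mem_insert_self _ _
  have hSF : ∀ g ∈ SE, g ∈ F := fun g hg => by simp [F, hg]
  have hPF : ∀ x ∈ P, x ∈ F := fun x hx => by simp [F, hx]
  have hPiF : ∀ x ∈ P, x⁻¹ ∈ F := fun x hx => by
    have : x⁻¹ ∈ P.image (fun x => x⁻¹) := Finset.mem_image_of_mem _ hx
    simp only [F, Finset.mem_insert, Finset.mem_union]
    exact Or.inr (Or.inl (Or.inr this))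
  have hPPF : ∀ x ∈ P, ∀ y ∈ P, x⁻¹ * y ∈ F := fun x hx y hy => by
    have : x⁻¹ * y ∈ (P ×ˢ P).image (fun x => x.1⁻¹ * x.2) :=
      Finset.mem_image.2 ⟨(x, y), Finset.mem_product.2 ⟨hx, hy⟩, rfl⟩
    simp only [F, Finset.mem_insert, Finset.mem_union]
    exact Or.inr (Or.inr this)
  -- constants
  set C : ℕ := SE.card * SE.card + SE.card + 1 with hC
  set D : ℕ := 1 + SE.card * (C * n + 1) with hD
  set N : ℕ := (F.card * F.card + 1) * D + 1 with hN
  obtain ⟨d, hd, φ, hφmul, hφlpi⟩ := hG F (1 / (N : ℝ)) (by positivity)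
  let badMul : G × G → Finset (Fin d) := fun gh =>
    Finset.univ.filter fun v => φ (gh.1 * gh.2) v ≠ φ gh.1 (φ gh.2 v)
  let badLpi : Finset (Fin d) := Finset.univ.filter fun v =>
    ¬ IsLocallyPIndicable p ↥(Subgroup.closure {g : G | g ∈ F ∧ φ g v = v})
  let bad : Finset (Fin d) := (F ×ˢ F).biUnion badMul ∪ badLpi
  have hbad : N * bad.card ≤ (F.card * F.card + 1) * d := by
    have h1 : (bad.card : ℝ) ≤ (F.card * F.card + 1 : ℕ) * (1 / (N : ℝ) * d) := by
      calc (bad.card : ℝ) ≤ (((F ×ˢ F).biUnion badMul).card : ℝ) + (badLpi.card : ℝ) := by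
            exact_mod_cast Finset.card_union_le _ _
        _ ≤ (∑ gh ∈ F ×ˢ F, ((badMul gh).card : ℝ)) + (badLpi.card : ℝ) := by
            gcongr
            exact_mod_cast Finset.card_biUnion_le
        _ ≤ (∑ _gh ∈ F ×ˢ F, (1 / (N : ℝ) * d)) + 1 / (N : ℝ) * d := by
            refine add_le_add (Finset.sum_le_sum fun gh hgh => ?_) ?_
            · have := hφmul gh.1 (Finset.mem_product.1 hgh).1 gh.2 (Finset.mem_product.1 hgh).2
              simpa [badMul, Nat.card_eq_fintype_card, Fintype.card_subtype] using this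
            · simpa [badLpi, Nat.card_eq_fintype_card, Fintype.card_subtype] using hφlpi
        _ = _ := by
            rw [Finset.sum_const, nsmul_eq_mul, Finset.card_product]
            push_cast
            ring
    have hNp : (0 : ℝ) < (N : ℝ) := by positivity
    rw [← mul_assoc, mul_one_div, div_mul_eq_mul_div, le_div_iff₀ hNp] at h1
    have : ((N * bad.card : ℕ) : ℝ) ≤ (((F.card * F.card + 1) * d : ℕ) : ℝ) := by
      push_cast at h1 ⊢
      linarith
    exact_mod_cast this
  let good : Finset (Fin d) := badᶜ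
  have hgmul : ∀ v ∈ good, ∀ g ∈ F, ∀ h ∈ F, φ (g * h) v = φ g (φ h v) := by
    intro v hv g hg h hh
    by_contra hne
    apply Finset.mem_compl.1 hv
    exact Finset.mem_union_left _ (Finset.mem_biUnion.2
      ⟨(g, h), Finset.mem_product.2 ⟨hg, hh⟩, by simp [badMul, hne]⟩)
  have hg1 : ∀ v ∈ good, φ 1 v = v := by
    intro v hv
    have h := hgmul v hv 1 h1F 1 h1F
    rw [one_mul] at h
    exact ((φ 1).injective h).symm
  have hglpi : ∀ v ∈ good,
      IsLocallyPIndicable p ↥(Subgroup.closure {g : G | g ∈ F ∧ φ g v = v}) := by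
    intro v hv
    by_contra hne
    exact Finset.mem_compl.1 hv (Finset.mem_union_right _ (by simp [badLpi, hne]))
  set X := model φ A
  set Y := model φ B
  -- good points with a nonzero column
  let U : Finset (Fin d) :=
    good.filter fun u => ∃ i j v, model φ E (i, v) (j, u) ≠ 0
  have hcover : good ⊆ SE.biUnion fun g => (U ∪ bad).image (φ g).symm := by
    intro w hw
    by_contra hno
    apply hE0
    have hcol : ∀ g ∈ SE, ∀ i j v, model φ E (i, v) (j, φ g w) = 0 := by
      intro g hg i j v
      by_contra hne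
      apply hno
      refine Finset.mem_biUnion.2 ⟨g, hg, Finset.mem_image.2 ⟨φ g w, ?_, by simp⟩⟩
      by_cases hb : φ g w ∈ bad
      · exact Finset.mem_union_right _ hb
      · exact Finset.mem_union_left _
          (Finset.mem_filter.2 ⟨Finset.mem_compl.2 hb, i, j, v, hne⟩)
    set H : Subgroup G := Subgroup.closure {g : G | g ∈ F ∧ φ g w = w} with hH
    have hzero : ∀ g ∈ SE, ∀ i j,
        Finsupp.mapDomain (fun h => ((h * g : G) : G ⧸ H)) (E i j).coeff = 0 := by
      intro g hg i j
      have hmemP : ∀ h ∈ (E i j).coeff.support, h * g ∈ P := fun h hh =>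
        Finset.mem_image.2 ⟨(h, g), Finset.mem_product.2 ⟨hSE i j h hh, hg⟩, rfl⟩
      let ψ : Fin d → G ⧸ H := fun u =>
        if hu : ∃ h ∈ (E i j).coeff.support, φ (h * g) w = u
        then ((hu.choose * g : G) : G ⧸ H) else ((1 : G) : G ⧸ H)
      have hψ : ∀ h ∈ (E i j).coeff.support,
          ((h * g : G) : G ⧸ H) = ψ (φ (h * g) w) := by
        intro h hh
        have hu : ∃ h' ∈ (E i j).coeff.support, φ (h' * g) w = φ (h * g) w := ⟨h, hh, rfl⟩
        simp only [ψ, dif_pos hu]
        obtain ⟨hs, heq⟩ := hu.choose_spec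
        apply QuotientGroup.eq.2
        refine Subgroup.subset_closure ⟨hPPF _ (hmemP h hh) _ (hmemP _ hs), ?_⟩
        rw [hgmul w hw _ (hPiF _ (hmemP h hh)) _ (hPF _ (hmemP _ hs)), heq,
          ← hgmul w hw _ (hPiF _ (hmemP h hh)) _ (hPF _ (hmemP h hh)), inv_mul_cancel, hg1 w hw]
      have hz : Finsupp.mapDomain (fun h => φ (h * g) w) (E i j).coeff = 0 := by
        refine Finsupp.ext fun v => ?_
        have heq : Finsupp.mapDomain (fun h => φ (h * g) w) (E i j).coeff
            = Finsupp.mapDomain (fun h => φ h (φ g w)) (E i j).coeff :=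
          Finsupp.mapDomain_congr fun h hh => hgmul w hw h (hSF _ (hSE i j h hh)) g (hSF _ hg)
        rw [heq]
        exact hcol g hg i j v
      calc Finsupp.mapDomain (fun h => ((h * g : G) : G ⧸ H)) (E i j).coeff
          = Finsupp.mapDomain (ψ ∘ fun h => φ (h * g) w) (E i j).coeff :=
            Finsupp.mapDomain_congr hψ
        _ = 0 := by rw [Finsupp.mapDomain_comp, hz, Finsupp.mapDomain_zero]
    have hbase : NoKer (1 - E) SE H := by
      intro y hy hyE
      have hEy : ∀ i j, act K H (E i j) (y j) = 0 := by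
        intro i j
        have hsum : act K H (E i j) (y j)
            = ∑ q ∈ (y j).support, act K H (E i j) (Finsupp.single q (y j q)) := by
          conv_lhs => rw [← Finsupp.sum_single (y j)]
          rw [Finsupp.sum, map_sum]
        rw [hsum]
        refine Finset.sum_eq_zero fun q hq => ?_
        obtain ⟨g, hg, rfl⟩ := hy j q hq
        rw [act_sum_single, hzero g hg i j, smul_zero]
      funext i
      have hi := hyE i
      have hterm : ∀ j, act K H ((1 - E) i j) (y j) = if i = j then y j else 0 := by
        intro j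
        have h1 : (1 - E) i j = (if i = j then 1 else 0) - E i j := by
          rw [Matrix.sub_apply, Matrix.one_apply]
        rw [h1, map_sub, LinearMap.sub_apply, hEy, sub_zero]
        split_ifs <;> simp
      simp only [hterm] at hi
      simpa using hi
    have hidem : (1 - E) * E = 0 := by
      have h2 : B * A * (B * A) = B * A := by
        rw [Matrix.mul_assoc B A (B * A), ← Matrix.mul_assoc A B A, hAB, Matrix.one_mul]
      rw [hE, sub_sub_cancel, Matrix.mul_sub, Matrix.mul_one, h2, sub_self]
    have hbot := noKer_bot (p := p) (1 - E) SE H (hglpi w hw) hbase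
    refine Matrix.ext fun i₀ k => ?_
    let y : Fin n → (G ⧸ (⊥ : Subgroup G) →₀ K) := fun i =>
      Finsupp.mapDomain QuotientGroup.mk (E i k).coeff
    have hy0 := hbot y ?_ ?_
    · have hi : Finsupp.mapDomain (QuotientGroup.mk : G → G ⧸ (⊥ : Subgroup G))
          (E i₀ k).coeff = 0 := congrFun hy0 i₀
      have hinj : Function.Injective (QuotientGroup.mk : G → G ⧸ (⊥ : Subgroup G)) := by
        intro a b hab
        have := QuotientGroup.eq.1 hab
        rwa [Subgroup.mem_bot, inv_mul_eq_one] at this
      apply MonoidAlgebra.coeff_injective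
      rw [Matrix.zero_apply, MonoidAlgebra.coeff_zero]
      exact Finsupp.mapDomain_injective hinj (by rw [hi, Finsupp.mapDomain_zero])
    · intro i u hu
      have hu' := Finsupp.mapDomain_support hu
      rw [Finset.mem_image] at hu'
      obtain ⟨g, hg, rfl⟩ := hu'
      exact ⟨g, hSE i k g hg, rfl⟩
    · intro i
      have hsum : ∑ j, (1 - E) i j * E j k = 0 := by
        rw [← Matrix.mul_apply, hidem, Matrix.zero_apply]
      rw [Finset.sum_congr rfl fun j _ => (mapDomain_coeff_mul ⊥ ((1 - E) i j) (E j k)).symm,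
        ← Finsupp.mapDomain_finsetSum, ← MonoidAlgebra.coeff_sum, hsum, MonoidAlgebra.coeff_zero,
        Finsupp.mapDomain_zero]
  have hgood : good.card ≤ SE.card * (U.card + bad.card) :=
    calc good.card ≤ (SE.biUnion fun g => (U ∪ bad).image (φ g).symm).card :=
          Finset.card_le_card hcover
      _ ≤ ∑ g ∈ SE, ((U ∪ bad).image (φ g).symm).card := Finset.card_biUnion_le
      _ ≤ ∑ _g ∈ SE, (U.card + bad.card) := Finset.sum_le_sum fun g _ =>
          Finset.card_image_le.trans (Finset.card_union_le _ _)
      _ = _ := by rw [Finset.sum_const, smul_eq_mul]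
  -- upper bound on the rank
  have hupper : (1 - X * Y).rank ≤ n * bad.card := by
    refine (rank_le_card_of_cols _ ((Finset.univ : Finset (Fin n)) ×ˢ bad) ?_).trans
      (by simp [Finset.card_product])
    rintro ⟨i, v⟩ ⟨j, w⟩ hy
    have hw : w ∈ good := by simpa [good] using hy
    rw [Matrix.sub_apply, model_mul φ A B i j v w
      (fun k g hg h hh => hgmul w hw g (hA i k g hg) h (hB k j h hh)), hAB]
    rw [← Matrix.sub_apply, ← model_one_sub φ 1 i j v w (hg1 w hw)]
    simp [model]
  -- lower bound on the rank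
  have hU : U.card ≤ C * (1 - Y * X).rank := by
    have hwit : ∀ u ∈ U, ∃ i j v, model φ E (i, v) (j, u) ≠ 0 :=
      fun u hu => (Finset.mem_filter.1 hu).2
    choose iu ju vu hne using hwit
    have hvu : ∀ u (hu : u ∈ U), ∃ s ∈ SE, φ s u = vu u hu := by
      intro u hu
      by_contra hno
      apply hne u hu
      show Finsupp.mapDomain (fun g => φ g u) _ (vu u hu) = 0
      by_contra hne'
      have hmem := Finsupp.mapDomain_support (Finsupp.mem_support_iff.2 hne')
      rw [Finset.mem_image] at hmem
      obtain ⟨s, hs, hsv⟩ := hmem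
      exact hno ⟨s, hSE _ _ s hs, hsv⟩
    let v' : Fin d → Fin d := fun u => if hu : u ∈ U then vu u hu else u
    have hv' : ∀ u (hu : u ∈ U), v' u = vu u hu := fun u hu => by simp [v', hu]
    let Sep : Finset (Fin d) → Prop := fun W =>
      ∀ u ∈ W, ∀ w ∈ W, u ≠ w → ∀ s ∈ SE, v' u ≠ φ s w
    obtain ⟨W, hW, hWmax⟩ := (U.powerset.filter Sep).exists_max_image Finset.card
      ⟨∅, by simp [Sep]⟩
    obtain ⟨hWsub, hWsep⟩ : W ⊆ U ∧ Sep W := by simpa using hW
    let T : Fin d → Finset (Fin d) := fun w => insert w
      ((SE ×ˢ SE).image (fun st => (φ st.2).symm (φ st.1 w)) ∪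
        SE.image (fun s => (φ s).symm (v' w)))
    have hcov : U ⊆ W.biUnion T := by
      intro u hu
      by_contra hno
      simp only [Finset.mem_biUnion, not_exists, not_and] at hno
      have huW : u ∉ W := fun h => hno u h (Finset.mem_insert_self _ _)
      have hsep' : Sep (insert u W) := by
        intro a ha b hb hab s hs heq
        rcases Finset.mem_insert.1 ha with rfl | ha'
        · rcases Finset.mem_insert.1 hb with rfl | hb'
          · exact hab rfl
          · apply hno b hb'
            refine Finset.mem_insert_of_mem (Finset.mem_union_left _ ?_)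
            obtain ⟨t, ht, htu⟩ := hvu a hu
            refine Finset.mem_image.2 ⟨(s, t), Finset.mem_product.2 ⟨hs, ht⟩, ?_⟩
            show (φ t).symm (φ s b) = a
            rw [← heq, hv' a hu, ← htu, Equiv.symm_apply_apply]
        · rcases Finset.mem_insert.1 hb with rfl | hb'
          · apply hno a ha'
            refine Finset.mem_insert_of_mem (Finset.mem_union_right _ ?_)
            exact Finset.mem_image.2 ⟨s, hs, by rw [heq, Equiv.symm_apply_apply]⟩
          · exact hWsep a ha' b hb' hab s hs heq
      have := hWmax (insert u W) (by simp [Finset.insert_subset hu hWsub, hsep'])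
      rw [Finset.card_insert_of_notMem huW] at this
      omega
    have hT : ∀ w, (T w).card ≤ C := by
      intro w
      refine (Finset.card_insert_le _ _).trans (Nat.succ_le_succ ?_)
      refine (Finset.card_union_le _ _).trans ?_
      refine add_le_add (Finset.card_image_le.trans ?_) Finset.card_image_le
      rw [Finset.card_product]
    have hrank : W.card ≤ (1 - Y * X).rank := by
      let r : ↥W → Fin n × Fin d := fun w => (iu w (hWsub w.2), vu w (hWsub w.2))
      let c : ↥W → Fin n × Fin d := fun w => (ju w (hWsub w.2), (w : Fin d))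
      have hval : ∀ i j v, ∀ w ∈ good, (1 - Y * X) (i, v) (j, w) = model φ E (i, v) (j, w) := by
        intro i j v w hw
        have hmm := model_one_sub φ (B * A) i j v w (hg1 _ hw)
        rw [Matrix.sub_apply, ← model_mul φ B A i j v w
          (fun k g hg h hh => hgmul w hw g (hB _ _ g hg) h (hA _ _ h hh)),
          ← Matrix.sub_apply] at hmm
        exact hmm.symm
      have hsub : (1 - Y * X).submatrix r c
          = Matrix.diagonal (fun w : ↥W => model φ E (r w) (c w)) := by
        refine Matrix.ext fun u w => ?_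
        rw [Matrix.submatrix_apply]
        have hw : (w : Fin d) ∈ good := (Finset.mem_filter.1 (hWsub w.2)).1
        rw [hval _ _ _ _ hw]
        by_cases huw : u = w
        · subst huw
          rw [Matrix.diagonal_apply_eq]
        · rw [Matrix.diagonal_apply_ne _ huw]
          by_contra hne'
          have hmem := Finsupp.mapDomain_support (Finsupp.mem_support_iff.2 hne')
          rw [Finset.mem_image] at hmem
          obtain ⟨s, hs, hsv⟩ := hmem
          refine hWsep u u.2 w w.2 (fun h => huw (Subtype.ext h)) s (hSE _ _ s hs) ?_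
          rw [hv' _ (hWsub u.2)]
          exact hsv.symm
      have h := Matrix.rank_submatrix_le (1 - Y * X) r c
      rw [hsub, Matrix.rank_diagonal] at h
      have hall : ∀ w : ↥W, model φ E (r w) (c w) ≠ 0 := fun w => hne _ (hWsub w.2)
      have hcard : Fintype.card {w : ↥W // model φ E (r w) (c w) ≠ 0} = W.card := by
        rw [Fintype.card_congr (Equiv.subtypeUnivEquiv hall), Fintype.card_coe]
      omega
    calc U.card ≤ (W.biUnion T).card := Finset.card_le_card hcov
      _ ≤ ∑ w ∈ W, (T w).card := Finset.card_biUnion_le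
      _ ≤ ∑ _w ∈ W, C := Finset.sum_le_sum fun w _ => hT w
      _ = W.card * C := by rw [Finset.sum_const, smul_eq_mul]
      _ ≤ (1 - Y * X).rank * C := Nat.mul_le_mul_right _ hrank
      _ = _ := Nat.mul_comm _ _
  rw [← rank_one_sub_mul_comm] at hU
  have hgc : good.card = d - bad.card := by simp [good, Finset.card_compl]
  have hfin : d ≤ D * bad.card := by
    have h3 : SE.card * (U.card + bad.card) ≤ SE.card * ((C * n + 1) * bad.card) := by
      refine Nat.mul_le_mul_left _ ?_
      have := Nat.mul_le_mul_left C hupper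
      rw [add_mul, one_mul, mul_assoc]
      omega
    have h4 : D * bad.card = bad.card + SE.card * ((C * n + 1) * bad.card) := by
      rw [hD]; ring
    omega
  have hlast : N * d ≤ D * ((F.card * F.card + 1) * d) :=
    calc N * d ≤ N * (D * bad.card) := Nat.mul_le_mul_left _ hfin
      _ = D * (N * bad.card) := by ring
      _ ≤ _ := Nat.mul_le_mul_left _ hbad
  have h5 : N * d = D * ((F.card * F.card + 1) * d) + d := by rw [hN]; ring
  omega

end Vale.Agent.P194
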